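import Vale.Agent.P249.Reduce

namespace Vale.Agent.P249

open Finset

/-- Nearly linear dimension suffices. -/
theorem dim_bound (p ε : ℝ) (hp : 1 ≤ p) (hε0 : 0 < ε) (hε1 : ε < 1) :
    ∃ C : ℝ, 0 < C ∧ ∀ n : ℕ, 2 ≤ n → ∃ d : ℕ, (d : ℝ) ≤ C * n * (Real.log n) ^ (p + 3) ∧
      ∀ (T : Type) [Fintype T] (X : Fin n → T → ℝ),
        (∀ u v, u ≠ v → 0 < ∑ t, |X u t - X v t| ^ p) →
        ∃ f : Fin n → Fin d → ℝ, ∃ K : ℝ, 0 < K ∧ ∀ u v,
          (1 - ε) * K * ∑ t, |X u t - X v t| ^ p ≤ ∑ j, |f u j - f v j| ^ p ∧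
          ∑ j, |f u j - f v j| ^ p ≤ (1 + ε) * K * ∑ t, |X u t - X v t| ^ p := by
  have hp0 : 0 < p := by linarith
  have hlog2a : (0.6931 : ℝ) < Real.log 2 := by
    have := Real.log_two_gt_d9
    linarith
  have hlog2b : Real.log 2 < 0.6932 := by
    have := Real.log_two_lt_d9
    linarith
  have hlog2 : 0 < Real.log 2 := by linarith
  refine ⟨4 / ε ^ 2 * (12 ^ p * 147) + 1 / (Real.log 2) ^ (p + 3), by positivity, ?_⟩
  intro n hn
  have hnr : (2 : ℝ) ≤ n := by exact_mod_cast hn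
  have hnpos : (0 : ℝ) < n := by linarith
  set l := Nat.log 2 n + 2 with hl
  set Q : ℝ := (2 * (l : ℝ) + 1) ^ p * (n * (((l : ℝ) + 1) * ((l : ℝ) + 1))) with hQ
  have hQpos : 0 < Q := by positivity
  set R : ℝ := 4 / ε ^ 2 * Q * Real.log (2 * (n : ℝ) ^ 2) with hR
  have hlogn : Real.log 2 ≤ Real.log n := Real.log_le_log (by norm_num) hnr
  have hlognpos : 0 < Real.log n := by linarith
  have hlog2n : Real.log (2 * (n : ℝ) ^ 2) = Real.log 2 + 2 * Real.log n := by
    rw [Real.log_mul (by norm_num) (by positivity), Real.log_pow]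
    norm_num
  have hlog2npos : 0 < Real.log (2 * (n : ℝ) ^ 2) := by
    rw [hlog2n]
    positivity
  have hRpos : 0 < R := by positivity
  refine ⟨⌊R⌋₊ + 1, ?_, ?_⟩
  · -- numerical bound
    have hl5 : (l : ℝ) ≤ 5 * Real.log n := by
      have h1 : ((Nat.log 2 n : ℕ) : ℝ) * Real.log 2 ≤ Real.log n := by
        have h2 : 2 ^ Nat.log 2 n ≤ n := Nat.pow_log_le_self 2 (by omega)
        have h3 : Real.log ((2 : ℝ) ^ Nat.log 2 n) ≤ Real.log n := by
          apply Real.log_le_log (by positivity)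
          exact_mod_cast h2
        rwa [Real.log_pow] at h3
      rw [hl]
      push_cast
      have h4 : (0 : ℝ) ≤ (Nat.log 2 n : ℕ) := Nat.cast_nonneg _
      nlinarith
    have hl12 : 2 * (l : ℝ) + 1 ≤ 12 * Real.log n := by nlinarith
    have hl7 : (l : ℝ) + 1 ≤ 7 * Real.log n := by nlinarith
    have h3 : Real.log (2 * (n : ℝ) ^ 2) ≤ 3 * Real.log n := by
      rw [hlog2n]
      linarith
    have hR1 : R ≤ 4 / ε ^ 2 * (12 ^ p * 147) * (n * (Real.log n) ^ (p + 3)) := by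
      have e1 : (2 * (l : ℝ) + 1) ^ p ≤ (12 * Real.log n) ^ p :=
        Real.rpow_le_rpow (by positivity) hl12 hp0.le
      have e2 : (12 * Real.log n) ^ p = 12 ^ p * (Real.log n) ^ p :=
        Real.mul_rpow (by norm_num) hlognpos.le
      have e3 : (Real.log n) ^ (p + 3) = (Real.log n) ^ p * (Real.log n) ^ 3 := by
        rw [Real.rpow_add hlognpos]
        congr 1
        exact_mod_cast Real.rpow_natCast (Real.log n) 3
      have e4 : Q ≤ 12 ^ p * (Real.log n) ^ p * (n * ((7 * Real.log n) * (7 * Real.log n))) := by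
        rw [hQ, ← e2]
        gcongr
      calc R ≤ 4 / ε ^ 2 * (12 ^ p * (Real.log n) ^ p * (n * ((7 * Real.log n) * (7 * Real.log n))))
            * (3 * Real.log n) := by
            rw [hR]
            gcongr
        _ = 4 / ε ^ 2 * (12 ^ p * 147) * (n * ((Real.log n) ^ p * (Real.log n) ^ 3)) := by ring
        _ = _ := by rw [e3]
    have hfl : (⌊R⌋₊ : ℝ) ≤ R := Nat.floor_le hRpos.le
    have h1 : (1 : ℝ) ≤ 1 / (Real.log 2) ^ (p + 3) * (n * (Real.log n) ^ (p + 3)) := by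
      have h2 : (Real.log 2) ^ (p + 3) ≤ (Real.log n) ^ (p + 3) :=
        Real.rpow_le_rpow hlog2.le hlogn (by positivity)
      have h4 : 0 < (Real.log 2) ^ (p + 3) := by positivity
      rw [one_div, inv_mul_eq_div, one_le_div h4]
      nlinarith
    push_cast
    calc (⌊R⌋₊ : ℝ) + 1 ≤ 4 / ε ^ 2 * (12 ^ p * 147) * (n * (Real.log n) ^ (p + 3))
          + 1 / (Real.log 2) ^ (p + 3) * (n * (Real.log n) ^ (p + 3)) :=
          add_le_add (hfl.trans hR1) h1
      _ = _ := by ring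
  · intro T _ X hX
    have hcard : Fintype.card (Fin n) = n := Fintype.card_fin n
    have hlt : n < 2 ^ (Nat.log 2 n + 1) := Nat.lt_pow_succ_log_self (by norm_num) n
    have h2l : 2 * n < 2 ^ l := by
      rw [hl, show Nat.log 2 n + 2 = (Nat.log 2 n + 1) + 1 by ring, pow_succ]
      omega
    apply reduce p hp X hX ε hε0 hε1 l l (by rw [hcard]; exact h2l) (by omega)
      (by
        rw [hcard]
        have h3 : 2 ^ l * 1 ≤ 2 ^ l * l := Nat.mul_le_mul_left _ (by omega)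
        omega) _ (by omega)
    rw [hcard]
    have hgt : R < ((⌊R⌋₊ + 1 : ℕ) : ℝ) := by
      push_cast
      exact Nat.lt_floor_add_one R
    have h5 : Real.log (2 * (n : ℝ) ^ 2) < ((⌊R⌋₊ + 1 : ℕ) : ℝ) * ε ^ 2 / (4 * Q) := by
      rw [lt_div_iff₀ (by positivity)]
      have h6 : Real.log (2 * (n : ℝ) ^ 2) * (4 * Q) = R * ε ^ 2 := by
        rw [hR]
        field_simp
      rw [h6]
      exact mul_lt_mul_of_pos_right hgt (by positivity)
    have h7 : Real.exp (-(((⌊R⌋₊ + 1 : ℕ) : ℝ) * ε ^ 2 / (4 * Q)))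
        < Real.exp (-(Real.log (2 * (n : ℝ) ^ 2))) := by
      apply Real.exp_lt_exp.mpr
      linarith
    rw [Real.exp_neg (Real.log _), Real.exp_log (by positivity)] at h7
    calc 2 * (n : ℝ) ^ 2 * Real.exp (-(((⌊R⌋₊ + 1 : ℕ) : ℝ) * ε ^ 2 / (4 * Q)))
        < 2 * (n : ℝ) ^ 2 * (2 * (n : ℝ) ^ 2)⁻¹ :=
          mul_lt_mul_of_pos_left h7 (by positivity)
      _ = 1 := mul_inv_cancel₀ (by positivity)

end Vale.Agent.P249
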