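import Vale.Agent.P249.Final

namespace Vale.Agent.P249

open Finset MeasureTheory
open scoped ENNReal

universe u

/-- Finitely many simple functions in `L_p` live in a finite-dimensional `ℓ_p`. -/
theorem simple_to_finite {Ω : Type u} [MeasurableSpace Ω] (μ : Measure Ω) (p : ℝ) (hp : 1 ≤ p)
    {n : ℕ} (g : Fin n → SimpleFunc Ω ℝ) (hg : ∀ i, MemLp (g i) (ENNReal.ofReal p) μ) :
    ∃ (T : Type) (_ : Fintype T) (Y : Fin n → T → ℝ), ∀ i j,
      ∑ t, |Y i t - Y j t| ^ p = ∫ ω, |g i ω - g j ω| ^ p ∂μ := by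
  classical
  have hp0 : 0 < p := by linarith
  have hp1 : 1 / p * p = 1 := by field_simp
  have hgi : ∀ i, Integrable (g i) μ := fun i =>
    (SimpleFunc.memLp_iff_integrable (by simpa using hp0) ENNReal.ofReal_ne_top).mp (hg i)
  let G : SimpleFunc Ω (Fin n → ℝ) :=
    { toFun := fun ω i => g i ω
      measurableSet_fiber' := by
        intro c
        exact (measurable_pi_lambda _ fun i => (g i).measurable) (measurableSet_singleton c)
      finite_range' := by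
        refine (Set.Finite.pi' (fun i => (g i).finite_range)).subset ?_
        rintro _ ⟨ω, rfl⟩ i
        exact ⟨ω, rfl⟩ }
  have hGi : Integrable G μ := Integrable.of_eval hgi
  refine ⟨G.range, inferInstance,
    fun i c => (μ.real (G ⁻¹' {(c : Fin n → ℝ)})) ^ (1 / p) * (c : Fin n → ℝ) i, ?_⟩
  intro i j
  have h0 : (fun c : Fin n → ℝ => |c i - c j| ^ p) 0 = 0 := by
    simp [Real.zero_rpow hp0.ne']
  have hHi : Integrable (G.map (fun c : Fin n → ℝ => |c i - c j| ^ p)) μ :=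
    SimpleFunc.integrable_iff_finMeasSupp.mpr
      ((SimpleFunc.integrable_iff_finMeasSupp.mp hGi).map h0)
  have h1 : ∫ ω, |g i ω - g j ω| ^ p ∂μ
      = (G.map (fun c : Fin n → ℝ => |c i - c j| ^ p)).integral μ := by
    rw [SimpleFunc.integral_eq_integral _ hHi]
    rfl
  have h2 := SimpleFunc.map_integral G (fun c : Fin n → ℝ => |c i - c j| ^ p) hGi h0
  rw [h1, h2, ← Finset.sum_coe_sort G.range
    (fun x => μ.real (G ⁻¹' {x}) • (fun c : Fin n → ℝ => |c i - c j| ^ p) x)]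
  refine Finset.sum_congr rfl fun c _ => ?_
  have h3 : 0 ≤ μ.real (G ⁻¹' {(c : Fin n → ℝ)}) := measureReal_nonneg
  rw [← mul_sub, abs_mul, abs_of_nonneg (Real.rpow_nonneg h3 _),
    Real.mul_rpow (Real.rpow_nonneg h3 _) (abs_nonneg _), ← Real.rpow_mul h3, hp1,
    Real.rpow_one, smul_eq_mul]

/-- Approximation of finitely many points of `L_p` by points of a finite-dimensional `ℓ_p`. -/
theorem approx {Ω : Type u} [MeasurableSpace Ω] (μ : Measure Ω) (p : ℝ) (hp : 1 ≤ p) {n : ℕ}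
    (X : Fin n → Lp ℝ (ENNReal.ofReal p) μ) (δ : ℝ) (hδ : 0 < δ) :
    ∃ (T : Type) (_ : Fintype T) (Y : Fin n → T → ℝ), ∀ i j,
      ‖X i - X j‖ - 2 * δ ≤ (∑ t, |Y i t - Y j t| ^ p) ^ (1 / p) ∧
      (∑ t, |Y i t - Y j t| ^ p) ^ (1 / p) ≤ ‖X i - X j‖ + 2 * δ := by
  classical
  have hp0 : 0 < p := by linarith
  have hfact : Fact (1 ≤ ENNReal.ofReal p) := ⟨by
    rw [← ENNReal.ofReal_one]
    exact ENNReal.ofReal_le_ofReal hp⟩
  have hne0 : ENNReal.ofReal p ≠ 0 := by simpa using hp0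
  have happ : ∀ i, ∃ g : SimpleFunc Ω ℝ,
      eLpNorm (⇑(X i) - ⇑g) (ENNReal.ofReal p) μ < ENNReal.ofReal δ ∧
      MemLp g (ENNReal.ofReal p) μ := fun i =>
    (Lp.memLp (X i)).exists_simpleFunc_eLpNorm_sub_lt ENNReal.ofReal_ne_top
      (by simpa using hδ)
  choose g hg1 hg2 using happ
  obtain ⟨T, hT, Y, hY⟩ := simple_to_finite μ p hp g hg2
  refine ⟨T, hT, Y, fun i j => ?_⟩
  rw [hY i j]
  have hZ : ∀ i, ‖X i - (hg2 i).toLp (g i)‖ ≤ δ := by
    intro i
    have h1 : X i - (hg2 i).toLp (g i)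
        = ((Lp.memLp (X i)).sub (hg2 i)).toLp (⇑(X i) - ⇑(g i)) := by
      rw [MemLp.toLp_sub (Lp.memLp (X i)) (hg2 i), Lp.toLp_coeFn (X i) (Lp.memLp (X i))]
    rw [h1, Lp.norm_toLp]
    exact (ENNReal.toReal_lt_of_lt_ofReal (hg1 i)).le
  have hZZ : ‖(hg2 i).toLp (g i) - (hg2 j).toLp (g j)‖
      = (∫ ω, |g i ω - g j ω| ^ p ∂μ) ^ (1 / p) := by
    rw [← MemLp.toLp_sub, Lp.norm_toLp,
      ((hg2 i).sub (hg2 j)).eLpNorm_eq_integral_rpow_norm hne0 ENNReal.ofReal_ne_top,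
      ENNReal.toReal_ofReal (by
        apply Real.rpow_nonneg
        apply integral_nonneg
        intro ω
        exact Real.rpow_nonneg (norm_nonneg _) _), ENNReal.toReal_ofReal hp0.le, one_div]
    simp only [Pi.sub_apply, Real.norm_eq_abs]
  rw [← hZZ]
  have h1 := hZ i
  have h2 := hZ j
  have h3 : ‖X i - X j‖ ≤ ‖X i - (hg2 i).toLp (g i)‖
      + ‖(hg2 i).toLp (g i) - (hg2 j).toLp (g j)‖ + ‖X j - (hg2 j).toLp (g j)‖ := by
    have e : X i - X j = (X i - (hg2 i).toLp (g i))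
        + ((hg2 i).toLp (g i) - (hg2 j).toLp (g j)) - (X j - (hg2 j).toLp (g j)) := by
      abel
    rw [e]
    exact (norm_sub_le _ _).trans (add_le_add (norm_add_le _ _) le_rfl)
  have h4 : ‖(hg2 i).toLp (g i) - (hg2 j).toLp (g j)‖ ≤ ‖X i - (hg2 i).toLp (g i)‖
      + ‖X i - X j‖ + ‖X j - (hg2 j).toLp (g j)‖ := by
    have e : (hg2 i).toLp (g i) - (hg2 j).toLp (g j) = -(X i - (hg2 i).toLp (g i))
        + (X i - X j) + (X j - (hg2 j).toLp (g j)) := by
      abel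
    rw [e]
    refine (norm_add_le _ _).trans (add_le_add ((norm_add_le _ _).trans ?_) le_rfl)
    rw [norm_neg]
  constructor
  · linarith
  · linarith

/-- Nearly linear dimension suffices for subsets of arbitrary `L_p` spaces. -/
theorem general (p D : ℝ) (hp : 1 ≤ p) (hD : 1 < D) :
    ∃ C : ℝ, 0 < C ∧ ∀ n : ℕ, 2 ≤ n → ∃ d : ℕ, (d : ℝ) ≤ C * n * (Real.log n) ^ (p + 3) ∧
      ∀ (Ω : Type u) [MeasurableSpace Ω] (μ : Measure Ω)
        (X : Fin n → Lp ℝ (ENNReal.ofReal p) μ), Function.Injective X →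
        ∃ f : Fin n → Fin d → ℝ, ∃ s : ℝ, 0 < s ∧ ∀ i j,
          s * ‖X i - X j‖ ≤ (∑ k, |f i k - f j k| ^ p) ^ (1 / p) ∧
          (∑ k, |f i k - f j k| ^ p) ^ (1 / p) ≤ D * s * ‖X i - X j‖ := by
  have hp0 : 0 < p := by linarith
  have hp1 : p * (1 / p) = 1 := by field_simp
  set r := Real.sqrt D with hr
  have hr1 : 1 < r := by
    rw [hr]
    exact Real.lt_sqrt_of_sq_lt (by linarith)
  have hrD : r * r = D := Real.mul_self_sqrt (by linarith)
  set ε := (r - 1) / (r + 1) with hε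
  have hε0 : 0 < ε := div_pos (by linarith) (by linarith)
  have hε1 : ε < 1 := by
    rw [hε, div_lt_one (by linarith)]
    linarith
  have hratio : 1 + ε = r * (1 - ε) := by
    rw [hε]
    field_simp
    ring
  obtain ⟨C, hC, hmain⟩ := dim_bound p ε hp hε0 hε1
  refine ⟨C, hC, fun n hn => ?_⟩
  obtain ⟨d, hd, hred⟩ := hmain n hn
  refine ⟨d, hd, fun Ω _ μ X hX => ?_⟩
  have hfact : Fact (1 ≤ ENNReal.ofReal p) := ⟨by
    rw [← ENNReal.ofReal_one]
    exact ENNReal.ofReal_le_ofReal hp⟩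
  obtain ⟨m0, hm0, hmin⟩ : ∃ m0 : ℝ, 0 < m0 ∧ ∀ i j, i ≠ j → m0 ≤ ‖X i - X j‖ := by
    have hne : (univ.filter fun z : Fin n × Fin n => z.1 ≠ z.2).Nonempty := by
      refine ⟨(⟨0, by omega⟩, ⟨1, by omega⟩), Finset.mem_filter.mpr ⟨Finset.mem_univ _, ?_⟩⟩
      intro h
      have := congrArg Fin.val h
      simp at this
    obtain ⟨z, hz, hzmin⟩ := Finset.exists_min_image _ (fun z : Fin n × Fin n =>
      ‖X z.1 - X z.2‖) hne
    refine ⟨‖X z.1 - X z.2‖, ?_, fun i j hij =>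
      hzmin (i, j) (Finset.mem_filter.mpr ⟨Finset.mem_univ _, hij⟩)⟩
    rw [norm_pos_iff, sub_ne_zero]
    intro h
    exact (Finset.mem_filter.mp hz).2 (hX h)
  obtain ⟨T, hT, Y, hY⟩ := approx μ p hp X (ε * m0 / 2) (by positivity)
  have hYlow : ∀ i j, i ≠ j → (1 - ε) * ‖X i - X j‖ ≤ (∑ t, |Y i t - Y j t| ^ p) ^ (1 / p) := by
    intro i j hij
    have h1 := (hY i j).1
    have h2 := hmin i j hij
    nlinarith
  have hYup : ∀ i j, i ≠ j → (∑ t, |Y i t - Y j t| ^ p) ^ (1 / p) ≤ (1 + ε) * ‖X i - X j‖ := by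
    intro i j hij
    have h1 := (hY i j).2
    have h2 := hmin i j hij
    nlinarith
  have hS0 : ∀ i j, 0 ≤ ∑ t, |Y i t - Y j t| ^ p := fun i j =>
    Finset.sum_nonneg fun t _ => Real.rpow_nonneg (abs_nonneg _) _
  obtain ⟨f, K, hK, hf⟩ := hred T Y (by
    intro i j hij
    rcases (hS0 i j).eq_or_lt with h0 | h0
    · exfalso
      have h1 := hYlow i j hij
      rw [← h0, Real.zero_rpow (by positivity)] at h1
      have h2 := hmin i j hij
      have h3 : 0 < (1 - ε) * ‖X i - X j‖ := mul_pos (by linarith) (by linarith)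
      linarith
    · exact h0)
  have hs : 0 < ((1 - ε) * K) ^ (1 / p) := Real.rpow_pos_of_pos (mul_pos (by linarith) hK) _
  refine ⟨f, ((1 - ε) * K) ^ (1 / p) * (1 - ε), mul_pos hs (by linarith), fun i j => ?_⟩
  by_cases hij : i = j
  · subst hij
    have h1 : ∑ k, |f i k - f i k| ^ p = 0 := by
      apply Finset.sum_eq_zero
      intro k _
      rw [sub_self, abs_zero]
      exact Real.zero_rpow hp0.ne'
    rw [h1, sub_self, norm_zero, mul_zero, mul_zero, Real.zero_rpow (by positivity)]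
    exact ⟨le_rfl, le_rfl⟩
  · obtain ⟨h1, h2⟩ := hf i j
    have hip : (0 : ℝ) ≤ 1 / p := by positivity
    have hF0 : 0 ≤ ∑ k, |f i k - f j k| ^ p :=
      Finset.sum_nonneg fun t _ => Real.rpow_nonneg (abs_nonneg _) _
    have hN0 : 0 ≤ ‖X i - X j‖ := norm_nonneg _
    have ha : 0 ≤ (1 - ε) * K := mul_nonneg (by linarith) hK.le
    have hb : 0 ≤ (1 + ε) * K := mul_nonneg (by linarith) hK.le
    constructor
    · calc ((1 - ε) * K) ^ (1 / p) * (1 - ε) * ‖X i - X j‖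
          = ((1 - ε) * K) ^ (1 / p) * ((1 - ε) * ‖X i - X j‖) := by ring
        _ ≤ ((1 - ε) * K) ^ (1 / p) * (∑ t, |Y i t - Y j t| ^ p) ^ (1 / p) :=
            mul_le_mul_of_nonneg_left (hYlow i j hij) hs.le
        _ = ((1 - ε) * K * ∑ t, |Y i t - Y j t| ^ p) ^ (1 / p) :=
            (Real.mul_rpow ha (hS0 i j)).symm
        _ ≤ (∑ k, |f i k - f j k| ^ p) ^ (1 / p) :=
            Real.rpow_le_rpow (mul_nonneg ha (hS0 i j)) h1 hip
    · have hr' : ((1 + ε) * K) ^ (1 / p) ≤ r * ((1 - ε) * K) ^ (1 / p) := by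
        have e1 : (1 + ε) * K = r * ((1 - ε) * K) := by rw [hratio]; ring
        rw [e1, Real.mul_rpow (by linarith) ha]
        apply mul_le_mul_of_nonneg_right _ hs.le
        calc r ^ (1 / p) ≤ r ^ (1 : ℝ) := by
              apply Real.rpow_le_rpow_of_exponent_le hr1.le
              rw [div_le_one hp0]
              exact hp
          _ = r := Real.rpow_one r
      calc (∑ k, |f i k - f j k| ^ p) ^ (1 / p)
          ≤ ((1 + ε) * K * ∑ t, |Y i t - Y j t| ^ p) ^ (1 / p) :=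
            Real.rpow_le_rpow hF0 h2 hip
        _ = ((1 + ε) * K) ^ (1 / p) * (∑ t, |Y i t - Y j t| ^ p) ^ (1 / p) :=
            Real.mul_rpow hb (hS0 i j)
        _ ≤ (r * ((1 - ε) * K) ^ (1 / p)) * ((1 + ε) * ‖X i - X j‖) :=
            mul_le_mul hr' (hYup i j hij) (Real.rpow_nonneg (hS0 i j) _)
              (mul_nonneg (by linarith) hs.le)
        _ = D * (((1 - ε) * K) ^ (1 / p) * (1 - ε)) * ‖X i - X j‖ := by
            rw [hratio, ← hrD]
            ring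

end Vale.Agent.P249
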