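import Mathlib

/-!
A discrete Prekopa-Leindler inequality in dimension one.
-/

namespace Vale.Agent.P249

open Finset MeasureTheory
open scoped Pointwise

/-- Two-sided midpoints of finite sets of natural numbers. -/
theorem midpoint_card (A B U : Finset ℕ) (hA : A.Nonempty) (hB : B.Nonempty)
    (hU1 : ∀ x ∈ A, ∀ y ∈ B, (x + y) / 2 ∈ U)
    (hU2 : ∀ x ∈ A, ∀ y ∈ B, (x + y + 1) / 2 ∈ U) :
    A.card + B.card ≤ 2 * U.card := by
  classical
  have h1 := cauchy_davenport_add_of_linearOrder_isCancelAdd hA hB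
  have hne : (A + B).Nonempty := hA.add hB
  obtain ⟨z, hz, hzmax⟩ := Finset.exists_max_image (A + B) id hne
  have hmaps : ∀ s ∈ A + B, (s / 2, s % 2) ∈ (U ×ˢ (Finset.range 2)).erase ((z + 1) / 2, 1) := by
    intro s hs
    have hs2 := hzmax s hs
    simp only [id] at hs2
    obtain ⟨x, hx, y, hy, rfl⟩ := Finset.mem_add.mp hs
    refine Finset.mem_erase.mpr ⟨?_, Finset.mem_product.mpr ⟨hU1 x hx y hy, ?_⟩⟩
    · intro h
      have h3 := congrArg Prod.fst h
      have h4 := congrArg Prod.snd h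
      simp only at h3 h4
      omega
    · exact Finset.mem_range.mpr (Nat.mod_lt _ (by norm_num))
  have hinj : Set.InjOn (fun s : ℕ => (s / 2, s % 2)) (A + B : Finset ℕ) := by
    intro a _ b _ h
    have h3 := congrArg Prod.fst h
    have h4 := congrArg Prod.snd h
    simp only at h3 h4
    omega
  have h2 := Finset.card_le_card_of_injOn _ hmaps hinj
  have hmem : ((z + 1) / 2, 1) ∈ U ×ˢ (Finset.range 2) := by
    obtain ⟨x, hx, y, hy, rfl⟩ := Finset.mem_add.mp hz
    exact Finset.mem_product.mpr ⟨hU2 x hx y hy, by simp⟩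
  rw [Finset.card_erase_of_mem hmem, Finset.card_product, Finset.card_range] at h2
  have h3 : 0 < A.card := hA.card_pos
  have h4 : 0 < B.card := hB.card_pos
  have h5 : 0 < (U ×ˢ (Finset.range 2)).card := Finset.card_pos.mpr ⟨_, hmem⟩
  rw [Finset.card_product, Finset.card_range] at h5
  omega

theorem layer_one (v : ℝ) (hv : 0 ≤ v) :
    ∫ t in Set.Ioc (0 : ℝ) 1, (if t ≤ v then (1 : ℝ) else 0) = min v 1 := by
  have h1 : (fun t : ℝ => if t ≤ v then (1 : ℝ) else 0) = (Set.Iic v).indicator (fun _ => 1) := by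
    ext t
    simp [Set.indicator_apply]
  rw [h1, setIntegral_indicator measurableSet_Iic, setIntegral_const, Set.Ioc_inter_Iic,
    smul_eq_mul, mul_one, Measure.real, Real.volume_Ioc, sub_zero, ENNReal.toReal_ofReal,
    min_comm]
  exact le_min zero_le_one hv

theorem layer_integrable (v : ℝ) :
    IntegrableOn (fun t : ℝ => if t ≤ v then (1 : ℝ) else 0) (Set.Ioc (0 : ℝ) 1) := by
  have h1 : (fun t : ℝ => if t ≤ v then (1 : ℝ) else 0) = (Set.Iic v).indicator (fun _ => 1) := by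
    ext t
    simp [Set.indicator_apply]
  rw [h1]
  exact (integrableOn_const (by simp)).indicator measurableSet_Iic

/-- Layer-cake comparison of sums. -/
theorem layer_compare (I : Finset ℕ) (u v w : ℕ → ℝ) (hu : ∀ x ∈ I, 0 ≤ u x ∧ u x ≤ 1)
    (hv : ∀ x ∈ I, 0 ≤ v x ∧ v x ≤ 1) (hw : ∀ x ∈ I, 0 ≤ w x)
    (h : ∀ t : ℝ, 0 < t → t ≤ 1 → (I.filter fun x => t ≤ u x).card
      + (I.filter fun x => t ≤ v x).card ≤ 2 * (I.filter fun x => t ≤ w x).card) :
    ∑ x ∈ I, u x + ∑ x ∈ I, v x ≤ 2 * ∑ x ∈ I, w x := by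
  classical
  have key : ∀ f : ℕ → ℝ, (∀ x ∈ I, 0 ≤ f x) →
      ∫ t in Set.Ioc (0 : ℝ) 1, (((I.filter fun x => t ≤ f x).card : ℕ) : ℝ)
        = ∑ x ∈ I, min (f x) 1 := by
    intro f hf
    have h1 : ∀ t : ℝ, (((I.filter fun x => t ≤ f x).card : ℕ) : ℝ)
        = ∑ x ∈ I, (if t ≤ f x then (1 : ℝ) else 0) := by
      intro t
      rw [Finset.card_filter]
      push_cast
      rfl
    simp only [h1]
    rw [integral_finsetSum _ (fun x _ => layer_integrable (f x))]
    exact Finset.sum_congr rfl fun x hx => layer_one _ (hf x hx)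
  have keyi : ∀ f : ℕ → ℝ,
      IntegrableOn (fun t : ℝ => (((I.filter fun x => t ≤ f x).card : ℕ) : ℝ))
        (Set.Ioc (0 : ℝ) 1) := by
    intro f
    have h1 : (fun t : ℝ => (((I.filter fun x => t ≤ f x).card : ℕ) : ℝ))
        = fun t => ∑ x ∈ I, (if t ≤ f x then (1 : ℝ) else 0) := by
      ext t
      rw [Finset.card_filter]
      push_cast
      rfl
    rw [h1]
    exact integrable_finsetSum _ fun x _ => layer_integrable (f x)
  have h1 : ∑ x ∈ I, min (u x) 1 + ∑ x ∈ I, min (v x) 1 ≤ 2 * ∑ x ∈ I, min (w x) 1 := by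
    rw [← key u (fun x hx => (hu x hx).1), ← key v (fun x hx => (hv x hx).1), ← key w hw,
      ← integral_add (keyi u) (keyi v), ← integral_const_mul]
    refine setIntegral_mono_on ((keyi u).add (keyi v)) ((keyi w).const_mul 2)
      measurableSet_Ioc ?_
    intro t ht
    have := h t ht.1 ht.2
    exact_mod_cast this
  have h2 : ∑ x ∈ I, min (u x) 1 = ∑ x ∈ I, u x :=
    Finset.sum_congr rfl fun x hx => min_eq_left (hu x hx).2
  have h3 : ∑ x ∈ I, min (v x) 1 = ∑ x ∈ I, v x :=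
    Finset.sum_congr rfl fun x hx => min_eq_left (hv x hx).2
  have h4 : ∑ x ∈ I, min (w x) 1 ≤ ∑ x ∈ I, w x :=
    Finset.sum_le_sum fun x _ => min_le_left _ _
  linarith

/-- Discrete Prekopa-Leindler inequality on `{0, …, M}`. -/
theorem discrete_pl (M : ℕ) (f g h : ℕ → ℝ) (hf : ∀ x, 0 ≤ f x) (hg : ∀ x, 0 ≤ g x)
    (hh : ∀ x, 0 ≤ h x)
    (h1 : ∀ x ≤ M, ∀ y ≤ M, f x * g y ≤ h ((x + y) / 2) ^ 2)
    (h2 : ∀ x ≤ M, ∀ y ≤ M, f x * g y ≤ h ((x + y + 1) / 2) ^ 2) :
    (∑ x ∈ range (M + 1), f x) * (∑ x ∈ range (M + 1), g x)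
      ≤ (∑ x ∈ range (M + 1), h x) ^ 2 := by
  classical
  have hne : (range (M + 1)).Nonempty := ⟨0, by simp⟩
  obtain ⟨xa, hxa, hfa⟩ := Finset.exists_max_image (range (M + 1)) f hne
  obtain ⟨xb, hxb, hgb⟩ := Finset.exists_max_image (range (M + 1)) g hne
  rcases (hf xa).eq_or_lt with ha | ha
  · have : ∑ x ∈ range (M + 1), f x = 0 := by
      apply Finset.sum_eq_zero
      intro x hx
      have := hfa x hx
      have := hf x
      linarith
    rw [this, zero_mul]
    positivity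
  rcases (hg xb).eq_or_lt with hb | hb
  · have : ∑ x ∈ range (M + 1), g x = 0 := by
      apply Finset.sum_eq_zero
      intro x hx
      have := hgb x hx
      have := hg x
      linarith
    rw [this, mul_zero]
    positivity
  obtain ⟨a, hadef⟩ : ∃ a, a = f xa := ⟨_, rfl⟩
  obtain ⟨b, hbdef⟩ : ∃ b, b = g xb := ⟨_, rfl⟩
  rw [← hadef] at ha hfa
  rw [← hbdef] at hb hgb
  obtain ⟨c, hcdef⟩ : ∃ c, c = Real.sqrt (a * b) := ⟨_, rfl⟩
  have hc : 0 < c := by rw [hcdef]; positivity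
  have hc2 : c ^ 2 = a * b := by rw [hcdef]; exact Real.sq_sqrt (by positivity)
  have hmain := layer_compare (range (M + 1)) (fun x => f x / a) (fun x => g x / b)
    (fun x => h x / c)
    (fun x hx => ⟨div_nonneg (hf x) ha.le, by rw [div_le_one ha]; exact hfa x hx⟩)
    (fun x hx => ⟨div_nonneg (hg x) hb.le, by rw [div_le_one hb]; exact hgb x hx⟩)
    (fun x hx => div_nonneg (hh x) hc.le) (by
      intro t ht0 ht1
      apply midpoint_card
      · refine ⟨xa, Finset.mem_filter.mpr ⟨hxa, ?_⟩⟩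
        rw [← hadef, div_self ha.ne']
        exact ht1
      · refine ⟨xb, Finset.mem_filter.mpr ⟨hxb, ?_⟩⟩
        rw [← hbdef, div_self hb.ne']
        exact ht1
      · intro x hx y hy
        obtain ⟨hx1, hx2⟩ := Finset.mem_filter.mp hx
        obtain ⟨hy1, hy2⟩ := Finset.mem_filter.mp hy
        rw [Finset.mem_range] at hx1 hy1
        rw [le_div_iff₀ ha] at hx2
        rw [le_div_iff₀ hb] at hy2
        refine Finset.mem_filter.mpr ⟨Finset.mem_range.mpr (by omega), ?_⟩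
        rw [le_div_iff₀ hc]
        refine le_of_sq_le_sq ?_ (hh _)
        refine le_trans ?_ (h1 x (by omega) y (by omega))
        calc (t * c) ^ 2 = (t * a) * (t * b) := by rw [mul_pow, hc2]; ring
          _ ≤ f x * g y := mul_le_mul hx2 hy2 (by positivity) (hf x)
      · intro x hx y hy
        obtain ⟨hx1, hx2⟩ := Finset.mem_filter.mp hx
        obtain ⟨hy1, hy2⟩ := Finset.mem_filter.mp hy
        rw [Finset.mem_range] at hx1 hy1
        rw [le_div_iff₀ ha] at hx2
        rw [le_div_iff₀ hb] at hy2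
        refine Finset.mem_filter.mpr ⟨Finset.mem_range.mpr (by omega), ?_⟩
        rw [le_div_iff₀ hc]
        refine le_of_sq_le_sq ?_ (hh _)
        refine le_trans ?_ (h2 x (by omega) y (by omega))
        calc (t * c) ^ 2 = (t * a) * (t * b) := by rw [mul_pow, hc2]; ring
          _ ≤ f x * g y := mul_le_mul hx2 hy2 (by positivity) (hf x))
  simp only [← Finset.sum_div] at hmain
  obtain ⟨F, hF⟩ : ∃ F, F = ∑ x ∈ range (M + 1), f x := ⟨_, rfl⟩
  obtain ⟨G, hG⟩ : ∃ G, G = ∑ x ∈ range (M + 1), g x := ⟨_, rfl⟩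
  obtain ⟨H, hH⟩ : ∃ H, H = ∑ x ∈ range (M + 1), h x := ⟨_, rfl⟩
  rw [← hF, ← hG, ← hH] at hmain ⊢
  have hF0 : 0 ≤ F := by rw [hF]; exact Finset.sum_nonneg fun x _ => hf x
  have hG0 : 0 ≤ G := by rw [hG]; exact Finset.sum_nonneg fun x _ => hg x
  have hH0 : 0 ≤ H := by rw [hH]; exact Finset.sum_nonneg fun x _ => hh x
  have hs1 : 0 ≤ F / a + G / b := by positivity
  have h3 : (F / a + G / b) ^ 2 ≤ (2 * (H / c)) ^ 2 := by
    exact pow_le_pow_left₀ hs1 hmain 2
  have h4 : 4 * ((F / a) * (G / b)) ≤ (F / a + G / b) ^ 2 := by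
    nlinarith [sq_nonneg (F / a - G / b)]
  have h5 : 4 * ((F / a) * (G / b)) ≤ 4 * (H ^ 2 / (a * b)) := by
    calc 4 * ((F / a) * (G / b)) ≤ (2 * (H / c)) ^ 2 := h4.trans h3
      _ = 4 * (H ^ 2 / c ^ 2) := by rw [mul_pow, div_pow]; norm_num
      _ = 4 * (H ^ 2 / (a * b)) := by rw [hc2]
  have h6 : (F * G) / (a * b) ≤ H ^ 2 / (a * b) := by
    have : (F / a) * (G / b) = (F * G) / (a * b) := by field_simp
    rw [this] at h5
    linarith
  rwa [div_le_div_iff_of_pos_right (by positivity)] at h6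

end Vale.Agent.P249
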