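import Vale.Agent.P249.Lower1

/-!
Concentration of Euclidean-Lipschitz functions on the grid `{0, …, M} ^ N`.
-/

namespace Vale.Agent.P249

open Finset

theorem sum_cons {β : Type*} [Fintype β] (N : ℕ) (F : (Fin (N + 1) → β) → ℝ) :
    ∑ x, F x = ∑ a, ∑ x', F (Fin.cons a x' : Fin (N + 1) → β) := by
  rw [← Fintype.sum_prod_type' (f := fun a x' => F (Fin.cons a x' : Fin (N + 1) → β))]
  exact (Fintype.sum_equiv (Fin.consEquiv (fun _ => β)) _ _ (fun _ => rfl)).symm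

theorem near_mid (x y z M : ℕ) (h1 : 2 * z ≤ x + y + 1) (h2 : z ≤ M) :
    (z : ℝ) ^ 2 ≤ (((x : ℝ) + y) / 2) ^ 2 + M := by
  have h1' : 2 * (z : ℝ) ≤ x + y + 1 := by exact_mod_cast h1
  have h2' : (z : ℝ) ≤ M := by exact_mod_cast h2
  have hx : (0 : ℝ) ≤ x := Nat.cast_nonneg x
  have hy : (0 : ℝ) ≤ y := Nat.cast_nonneg y
  have hz : (0 : ℝ) ≤ z := Nat.cast_nonneg z
  have hM : (0 : ℝ) ≤ M := Nat.cast_nonneg M
  obtain ⟨s, hs⟩ : ∃ s : ℝ, s = ((x : ℝ) + y) / 2 := ⟨_, rfl⟩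
  rw [← hs]
  have hs0 : 0 ≤ s := by rw [hs]; positivity
  have h3 : (z : ℝ) ≤ s + 1 / 2 := by rw [hs]; linarith
  rcases le_total (z : ℝ) s with h | h
  · nlinarith
  · nlinarith

/-- Two-function inequality in dimension one. -/
theorem one_dim (M : ℕ) (α K : ℝ) (hα : 0 ≤ α) (hK : 0 ≤ K) (u v : Fin (M + 1) → ℝ)
    (hu : ∀ a, 0 ≤ u a) (hv : ∀ a, 0 ≤ v a)
    (h : ∀ a b, u a * v b ≤ K * Real.exp (α / 2 * ((a : ℝ) - (b : ℝ)) ^ 2)) :
    (∑ a : Fin (M + 1), Real.exp (-α * (a : ℝ) ^ 2) * u a)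
      * (∑ a : Fin (M + 1), Real.exp (-α * (a : ℝ) ^ 2) * v a)
      ≤ K * (Real.exp (2 * α * M) * (∑ a : Fin (M + 1), Real.exp (-α * (a : ℝ) ^ 2)) ^ 2) := by
  obtain ⟨f, hf⟩ : ∃ f : ℕ → ℝ, f = fun x => if h : x < M + 1 then
    Real.exp (-α * (x : ℝ) ^ 2) * u ⟨x, h⟩ else 0 := ⟨_, rfl⟩
  obtain ⟨g, hg⟩ : ∃ g : ℕ → ℝ, g = fun x => if h : x < M + 1 then
    Real.exp (-α * (x : ℝ) ^ 2) * v ⟨x, h⟩ else 0 := ⟨_, rfl⟩
  obtain ⟨k, hk⟩ : ∃ k : ℕ → ℝ, k = fun z : ℕ =>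
    Real.sqrt K * Real.exp (α * M) * Real.exp (-α * (z : ℝ) ^ 2) := ⟨_, rfl⟩
  have hf0 : ∀ x, 0 ≤ f x := by
    intro x
    rw [hf]
    simp only
    split_ifs with h
    · exact mul_nonneg (Real.exp_nonneg _) (hu _)
    · exact le_rfl
  have hg0 : ∀ x, 0 ≤ g x := by
    intro x
    rw [hg]
    simp only
    split_ifs with h
    · exact mul_nonneg (Real.exp_nonneg _) (hv _)
    · exact le_rfl
  have hk0 : ∀ x, 0 ≤ k x := by
    intro x
    rw [hk]
    positivity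
  have key : ∀ x ≤ M, ∀ y ≤ M, ∀ z ≤ M, 2 * z ≤ x + y + 1 → f x * g y ≤ k z ^ 2 := by
    intro x hx y hy z hz hz2
    have e1 : f x = Real.exp (-α * (x : ℝ) ^ 2) * u ⟨x, by omega⟩ := by
      rw [hf]; simp only; rw [dif_pos (by omega : x < M + 1)]
    have e2 : g y = Real.exp (-α * (y : ℝ) ^ 2) * v ⟨y, by omega⟩ := by
      rw [hg]; simp only; rw [dif_pos (by omega : y < M + 1)]
    have e3 : k z ^ 2 = K * Real.exp (2 * (α * M) + 2 * (-α * (z : ℝ) ^ 2)) := by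
      rw [hk]
      simp only
      rw [mul_pow, mul_pow, Real.sq_sqrt hK, ← Real.exp_nat_mul, ← Real.exp_nat_mul, Real.exp_add]
      push_cast
      ring
    rw [e1, e2, e3]
    have h1 := h ⟨x, by omega⟩ ⟨y, by omega⟩
    simp only at h1
    have h2 := near_mid x y z M hz2 hz
    calc Real.exp (-α * (x : ℝ) ^ 2) * u ⟨x, by omega⟩
          * (Real.exp (-α * (y : ℝ) ^ 2) * v ⟨y, by omega⟩)
        = (Real.exp (-α * (x : ℝ) ^ 2) * Real.exp (-α * (y : ℝ) ^ 2))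
          * (u ⟨x, by omega⟩ * v ⟨y, by omega⟩) := by ring
      _ ≤ (Real.exp (-α * (x : ℝ) ^ 2) * Real.exp (-α * (y : ℝ) ^ 2))
          * (K * Real.exp (α / 2 * ((x : ℝ) - (y : ℝ)) ^ 2)) :=
          mul_le_mul_of_nonneg_left h1 (by positivity)
      _ = K * Real.exp (-α * (x : ℝ) ^ 2 + -α * (y : ℝ) ^ 2
          + α / 2 * ((x : ℝ) - (y : ℝ)) ^ 2) := by
          rw [Real.exp_add, Real.exp_add]; ring
      _ ≤ K * Real.exp (2 * (α * M) + 2 * (-α * (z : ℝ) ^ 2)) := by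
          apply mul_le_mul_of_nonneg_left _ hK
          apply Real.exp_le_exp.mpr
          have h3 : α * (z : ℝ) ^ 2 ≤ α * ((((x : ℝ) + y) / 2) ^ 2 + M) :=
            mul_le_mul_of_nonneg_left h2 hα
          nlinarith
  have hmain := discrete_pl M f g k hf0 hg0 hk0
    (fun x hx y hy => key x hx y hy _ (by omega) (by omega))
    (fun x hx y hy => by
      by_cases hxy : x + y + 1 ≤ 2 * M + 1
      · exact key x hx y hy _ (by omega) (by omega)
      · omega)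
  rw [← Fin.sum_univ_eq_sum_range, ← Fin.sum_univ_eq_sum_range,
    ← Fin.sum_univ_eq_sum_range] at hmain
  have s1 : ∑ a : Fin (M + 1), f a = ∑ a : Fin (M + 1), Real.exp (-α * (a : ℝ) ^ 2) * u a := by
    refine Finset.sum_congr rfl fun a _ => ?_
    rw [hf]; simp only; rw [dif_pos a.isLt]
  have s2 : ∑ a : Fin (M + 1), g a = ∑ a : Fin (M + 1), Real.exp (-α * (a : ℝ) ^ 2) * v a := by
    refine Finset.sum_congr rfl fun a _ => ?_
    rw [hg]; simp only; rw [dif_pos a.isLt]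
  have s3 : ∑ a : Fin (M + 1), k a
      = Real.sqrt K * Real.exp (α * M) * ∑ a : Fin (M + 1), Real.exp (-α * (a : ℝ) ^ 2) := by
    rw [hk, Finset.mul_sum]
  rw [s1, s2, s3] at hmain
  refine hmain.trans (le_of_eq ?_)
  rw [mul_pow, mul_pow, Real.sq_sqrt hK, ← Real.exp_nat_mul]
  push_cast
  rw [show 2 * (α * (M : ℝ)) = 2 * α * M by ring]
  ring

/-- Tensorization. -/
theorem tensor (M : ℕ) (α : ℝ) (hα : 0 ≤ α) : ∀ (N : ℕ) (K : ℝ), 0 ≤ K →
    ∀ u v : (Fin N → Fin (M + 1)) → ℝ, (∀ x, 0 ≤ u x) → (∀ x, 0 ≤ v x) →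
    (∀ x y, u x * v y ≤ K * Real.exp (α / 2 * ∑ i, ((x i : ℝ) - (y i : ℝ)) ^ 2)) →
    (∑ x, (∏ i, Real.exp (-α * (x i : ℝ) ^ 2)) * u x)
      * (∑ x, (∏ i, Real.exp (-α * (x i : ℝ) ^ 2)) * v x)
      ≤ K * (Real.exp (2 * α * M) * (∑ a : Fin (M + 1), Real.exp (-α * (a : ℝ) ^ 2)) ^ 2) ^ N := by
  intro N
  induction N with
  | zero =>
    intro K hK u v hu hv h
    have h1 : ∀ x y, u x * v y ≤ K := by
      intro x y
      have h2 := h x y
      simp only [Finset.univ_eq_empty, Finset.sum_empty, mul_zero, Real.exp_zero, mul_one] at h2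
      exact h2
    simp only [Fintype.sum_unique, Finset.univ_eq_empty, Finset.prod_empty, one_mul, pow_zero,
      mul_one]
    exact h1 _ _
  | succ N ih =>
    intro K hK u v hu hv h
    obtain ⟨Q, hQ⟩ : ∃ Q, Q = Real.exp (2 * α * M)
      * (∑ a : Fin (M + 1), Real.exp (-α * (a : ℝ) ^ 2)) ^ 2 := ⟨_, rfl⟩
    have hQ0 : 0 ≤ Q := by rw [hQ]; positivity
    rw [← hQ] at ih ⊢
    have hsplit : ∀ w : (Fin (N + 1) → Fin (M + 1)) → ℝ,
        ∑ x, (∏ i, Real.exp (-α * (x i : ℝ) ^ 2)) * w x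
        = ∑ a : Fin (M + 1), Real.exp (-α * (a : ℝ) ^ 2)
          * ∑ x' : Fin N → Fin (M + 1), (∏ i, Real.exp (-α * (x' i : ℝ) ^ 2))
            * w (Fin.cons a x' : Fin (N + 1) → Fin (M + 1)) := by
      intro w
      rw [sum_cons]
      refine Finset.sum_congr rfl fun a _ => ?_
      rw [Finset.mul_sum]
      refine Finset.sum_congr rfl fun x' _ => ?_
      rw [Fin.prod_univ_succ]
      simp only [Fin.cons_zero, Fin.cons_succ]
      ring
    rw [hsplit u, hsplit v]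
    have h1 := one_dim M α (K * Q ^ N) hα (by positivity)
      (fun a => ∑ x' : Fin N → Fin (M + 1), (∏ i, Real.exp (-α * (x' i : ℝ) ^ 2))
            * u (Fin.cons a x' : Fin (N + 1) → Fin (M + 1)))
      (fun a => ∑ x' : Fin N → Fin (M + 1), (∏ i, Real.exp (-α * (x' i : ℝ) ^ 2))
            * v (Fin.cons a x' : Fin (N + 1) → Fin (M + 1)))
      (fun a => Finset.sum_nonneg fun x' _ =>
        mul_nonneg (Finset.prod_nonneg fun i _ => Real.exp_nonneg _) (hu _))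
      (fun a => Finset.sum_nonneg fun x' _ =>
        mul_nonneg (Finset.prod_nonneg fun i _ => Real.exp_nonneg _) (hv _))
      (by
        intro a b
        have h2 := ih (K * Real.exp (α / 2 * ((a : ℝ) - (b : ℝ)) ^ 2)) (by positivity)
          (fun x' => u (Fin.cons a x' : Fin (N + 1) → Fin (M + 1)))
          (fun x' => v (Fin.cons b x' : Fin (N + 1) → Fin (M + 1)))
          (fun x' => hu _) (fun x' => hv _) (by
            intro x' y'
            have h3 := h (Fin.cons a x' : Fin (N + 1) → Fin (M + 1))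
              (Fin.cons b y' : Fin (N + 1) → Fin (M + 1))
            rw [Fin.sum_univ_succ] at h3
            simp only [Fin.cons_zero, Fin.cons_succ] at h3
            rw [mul_add, Real.exp_add, ← mul_assoc] at h3
            exact h3)
        refine h2.trans (le_of_eq ?_)
        ring)
    refine h1.trans (le_of_eq ?_)
    rw [← hQ]
    ring

theorem rpow_le_exp (t p : ℝ) (ht : 0 ≤ t) (hp : 0 < p) : t ^ p ≤ p ^ p * Real.exp t := by
  have h1 : t / p ≤ Real.exp (t / p) := by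
    have := Real.add_one_le_exp (t / p)
    linarith
  have h2 : (t / p) ^ p ≤ (Real.exp (t / p)) ^ p :=
    Real.rpow_le_rpow (by positivity) h1 hp.le
  rw [← Real.exp_mul, div_mul_cancel₀ _ hp.ne', Real.div_rpow ht hp.le,
    div_le_iff₀ (Real.rpow_pos_of_pos hp _)] at h2
  linarith

/-- Moments of differences of a Euclidean-Lipschitz function on the grid `{0, …, M} ^ M`. -/
theorem concentration (M : ℕ) (hM : 0 < M) (α : ℝ) (hα : α = 1 / (M : ℝ) ^ 2)
    (φ : (Fin M → Fin (M + 1)) → ℝ) (L : ℝ) (hL : 0 < L)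
    (hφ : ∀ x y, |φ x - φ y| ≤ L * (Real.sqrt (∑ i, ((x i : ℝ) - (y i : ℝ)) ^ 2) / M))
    (p : ℝ) (hp : 0 < p) :
    ∑ x, ∑ y, (∏ i, Real.exp (-α * (x i : ℝ) ^ 2)) * (∏ i, Real.exp (-α * (y i : ℝ) ^ 2))
      * |φ x - φ y| ^ p
      ≤ L ^ p * p ^ p * (2 * Real.exp (5 / 2))
        * ((∑ a : Fin (M + 1), Real.exp (-α * (a : ℝ) ^ 2)) ^ M) ^ 2 := by
  have hM' : (0 : ℝ) < M := by exact_mod_cast hM
  have hα0 : 0 ≤ α := by rw [hα]; positivity
  obtain ⟨Z, hZ⟩ : ∃ Z, Z = ∑ a : Fin (M + 1), Real.exp (-α * (a : ℝ) ^ 2) := ⟨_, rfl⟩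
  have h0 : ∀ x y, (φ x - φ y) / L ≤ 1 / 2 + α / 2 * ∑ i, ((x i : ℝ) - (y i : ℝ)) ^ 2 := by
    intro x y
    obtain ⟨S, hS⟩ : ∃ S, S = ∑ i, ((x i : ℝ) - (y i : ℝ)) ^ 2 := ⟨_, rfl⟩
    have hS0 : 0 ≤ S := by rw [hS]; positivity
    have h1 := hφ x y
    rw [← hS] at h1 ⊢
    have h2 : (φ x - φ y) / L ≤ Real.sqrt S / M := by
      rw [div_le_iff₀ hL]
      have := le_abs_self (φ x - φ y)
      linarith
    have h3 : α / 2 * S = (Real.sqrt S / M) ^ 2 / 2 := by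
      rw [div_pow, Real.sq_sqrt hS0, hα]
      ring
    rw [h3]
    nlinarith [sq_nonneg (Real.sqrt S / M - 1)]
  have h1 := tensor M α hα0 M (Real.exp (1 / 2)) (Real.exp_nonneg _)
    (fun x => Real.exp (φ x / L)) (fun x => Real.exp (-(φ x / L)))
    (fun x => Real.exp_nonneg _) (fun x => Real.exp_nonneg _) (by
      intro x y
      rw [← Real.exp_add, ← Real.exp_add]
      apply Real.exp_le_exp.mpr
      have := h0 x y
      rw [sub_div] at this
      linarith)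
  rw [← hZ] at h1 ⊢
  have h2 : Real.exp (1 / 2) * (Real.exp (2 * α * M) * Z ^ 2) ^ M
      = Real.exp (5 / 2) * (Z ^ M) ^ 2 := by
    rw [mul_pow, ← Real.exp_nat_mul, ← mul_assoc, ← Real.exp_add, ← pow_mul, ← pow_mul,
      mul_comm M 2, hα]
    congr 2
    field_simp
    norm_num
  rw [h2, Finset.sum_mul_sum] at h1
  have h3 : ∀ x y, |φ x - φ y| ^ p ≤ L ^ p * p ^ p
      * (Real.exp (φ x / L) * Real.exp (-(φ y / L))
        + Real.exp (φ y / L) * Real.exp (-(φ x / L))) := by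
    intro x y
    obtain ⟨t, ht⟩ : ∃ t, t = |φ x - φ y| / L := ⟨_, rfl⟩
    have ht0 : 0 ≤ t := by rw [ht]; positivity
    have e1 : |φ x - φ y| = L * t := by rw [ht]; field_simp
    rw [e1, Real.mul_rpow hL.le ht0, mul_assoc]
    apply mul_le_mul_of_nonneg_left _ (Real.rpow_nonneg hL.le _)
    refine (rpow_le_exp t p ht0 hp).trans ?_
    apply mul_le_mul_of_nonneg_left _ (Real.rpow_nonneg hp.le _)
    rw [← Real.exp_add, ← Real.exp_add]
    rcases abs_cases (φ x - φ y) with h | h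
    · have e2 : t = φ x / L + -(φ y / L) := by rw [ht, h.1]; ring
      rw [← e2]
      have := Real.exp_nonneg (φ y / L + -(φ x / L))
      linarith
    · have e2 : t = φ y / L + -(φ x / L) := by rw [ht, h.1]; ring
      rw [← e2]
      have := Real.exp_nonneg (φ x / L + -(φ y / L))
      linarith
  obtain ⟨W, hW⟩ : ∃ W : (Fin M → Fin (M + 1)) → ℝ,
    W = fun x => ∏ i, Real.exp (-α * (x i : ℝ) ^ 2) := ⟨_, rfl⟩
  have hWx : ∀ x, (∏ i, Real.exp (-α * (x i : ℝ) ^ 2)) = W x := by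
    intro x; rw [hW]
  have hW0 : ∀ x, 0 ≤ W x := by
    intro x; rw [hW]; positivity
  simp only [hWx] at h1 ⊢
  obtain ⟨P, hP⟩ : ∃ P, P = L ^ p * p ^ p := ⟨_, rfl⟩
  have hP0 : 0 ≤ P := by rw [hP]; positivity
  rw [← hP] at h3 ⊢
  have h5 : ∑ x, ∑ y, W x * W y * |φ x - φ y| ^ p
      ≤ ∑ x, ∑ y, (P * (W x * Real.exp (φ x / L) * (W y * Real.exp (-(φ y / L))))
        + P * (W y * Real.exp (φ y / L) * (W x * Real.exp (-(φ x / L))))) := by
    refine Finset.sum_le_sum fun x _ => Finset.sum_le_sum fun y _ => ?_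
    calc W x * W y * |φ x - φ y| ^ p
        ≤ W x * W y * (P * (Real.exp (φ x / L) * Real.exp (-(φ y / L))
        + Real.exp (φ y / L) * Real.exp (-(φ x / L)))) :=
          mul_le_mul_of_nonneg_left (h3 x y) (mul_nonneg (hW0 x) (hW0 y))
      _ = _ := by ring
  have h6 : ∑ x, ∑ y, (P * (W x * Real.exp (φ x / L) * (W y * Real.exp (-(φ y / L))))
        + P * (W y * Real.exp (φ y / L) * (W x * Real.exp (-(φ x / L)))))
      = P * (∑ x, ∑ y, W x * Real.exp (φ x / L) * (W y * Real.exp (-(φ y / L))))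
        + P * (∑ x, ∑ y, W y * Real.exp (φ y / L) * (W x * Real.exp (-(φ x / L)))) := by
    simp only [Finset.mul_sum, Finset.sum_add_distrib]
  have h7 : ∑ x, ∑ y, W y * Real.exp (φ y / L) * (W x * Real.exp (-(φ x / L)))
      = ∑ x, ∑ y, W x * Real.exp (φ x / L) * (W y * Real.exp (-(φ y / L))) :=
    Finset.sum_comm
  rw [h7] at h6
  rw [h6] at h5
  have h8 := mul_le_mul_of_nonneg_left h1 hP0
  refine h5.trans ?_
  calc P * (∑ x, ∑ y, W x * Real.exp (φ x / L) * (W y * Real.exp (-(φ y / L))))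
        + P * (∑ x, ∑ y, W x * Real.exp (φ x / L) * (W y * Real.exp (-(φ y / L))))
      ≤ P * (Real.exp (5 / 2) * (Z ^ M) ^ 2) + P * (Real.exp (5 / 2) * (Z ^ M) ^ 2) :=
        add_le_add h8 h8
    _ = P * (2 * Real.exp (5 / 2)) * (Z ^ M) ^ 2 := by ring

end Vale.Agent.P249
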