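import Vale.Agent.P249.Lower2

/-!
Average distances on the grid, and Rademacher sums.
-/

namespace Vale.Agent.P249

open Finset

theorem lin_avg {β : Type*} [Fintype β] (w c : β → ℝ) (v : ℝ) (hw : ∀ a, 0 ≤ w a)
    (hv : v * ∑ a, w a ≤ ∑ a, w a * c a) : ∀ N : ℕ,
    (N : ℝ) * v * (∑ a, w a) ^ N ≤ ∑ z : Fin N → β, (∏ i, w (z i)) * ∑ i, c (z i) := by
  intro N
  obtain ⟨Z, hZ⟩ : ∃ Z, Z = ∑ a, w a := ⟨_, rfl⟩
  have hZ0 : 0 ≤ Z := by rw [hZ]; exact Finset.sum_nonneg fun a _ => hw a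
  rw [← hZ] at hv ⊢
  induction N with
  | zero => simp
  | succ N ih =>
    rw [sum_cons]
    have h1 : ∀ a : β, ∑ x' : Fin N → β, (∏ i, w ((Fin.cons a x' : Fin (N + 1) → β) i))
          * ∑ i, c ((Fin.cons a x' : Fin (N + 1) → β) i)
        = (w a * c a) * Z ^ N + w a * ∑ x' : Fin N → β, (∏ i, w (x' i)) * ∑ i, c (x' i) := by
      intro a
      rw [hZ, Fintype.sum_pow, Finset.mul_sum, Finset.mul_sum, ← Finset.sum_add_distrib]
      refine Finset.sum_congr rfl fun x' _ => ?_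
      rw [Fin.prod_univ_succ, Fin.sum_univ_succ]
      simp only [Fin.cons_zero, Fin.cons_succ]
      ring
    simp only [h1]
    rw [Finset.sum_add_distrib, ← Finset.sum_mul, ← Finset.sum_mul, ← hZ]
    have h2 : v * Z * Z ^ N ≤ (∑ a, w a * c a) * Z ^ N :=
      mul_le_mul_of_nonneg_right hv (pow_nonneg hZ0 N)
    have h3 : Z * ((N : ℝ) * v * Z ^ N) ≤ Z * ∑ x' : Fin N → β, (∏ i, w (x' i)) * ∑ i, c (x' i) :=
      mul_le_mul_of_nonneg_left ih hZ0
    have h4 : ((N + 1 : ℕ) : ℝ) * v * Z ^ (N + 1) = v * Z * Z ^ N + Z * ((N : ℝ) * v * Z ^ N) := by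
      push_cast
      ring
    rw [h4]
    exact add_le_add h2 h3

theorem jensen {ι : Type*} (s : Finset ι) (w z : ι → ℝ) (hw : ∀ i ∈ s, 0 ≤ w i)
    (hz : ∀ i ∈ s, 0 ≤ z i) (T A q : ℝ) (hT : T = ∑ i ∈ s, w i) (hT0 : 0 < T) (hA : 0 ≤ A)
    (hq : 1 ≤ q) (h : A * T ≤ ∑ i ∈ s, w i * z i) : A ^ q * T ≤ ∑ i ∈ s, w i * z i ^ q := by
  have h1 := Real.rpow_arith_mean_le_arith_mean_rpow s (fun i => w i / T) z
    (fun i hi => div_nonneg (hw i hi) hT0.le) (by rw [← Finset.sum_div, ← hT, div_self hT0.ne'])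
    hz hq
  have h2 : ∑ i ∈ s, w i / T * z i = (∑ i ∈ s, w i * z i) / T := by
    rw [Finset.sum_div]
    exact Finset.sum_congr rfl fun i _ => by ring
  have h3 : ∑ i ∈ s, w i / T * z i ^ q = (∑ i ∈ s, w i * z i ^ q) / T := by
    rw [Finset.sum_div]
    exact Finset.sum_congr rfl fun i _ => by ring
  rw [h2, h3] at h1
  have h4 : A ≤ (∑ i ∈ s, w i * z i) / T := by rwa [le_div_iff₀ hT0]
  have h5 : A ^ q ≤ ((∑ i ∈ s, w i * z i) / T) ^ q := Real.rpow_le_rpow hA h4 (by linarith)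
  rw [← le_div_iff₀ hT0]
  exact h5.trans h1

theorem sum_diff_sq (M : ℕ) : ∑ a : Fin (M + 1), ∑ b : Fin (M + 1), ((a : ℝ) - (b : ℝ)) ^ 2
    = ((M : ℝ) + 1) ^ 2 * M * (M + 2) / 6 := by
  have h1 : ∀ m : ℕ, ∑ a ∈ range (m + 1), (a : ℝ) = (m : ℝ) * (m + 1) / 2 := by
    intro m
    induction m with
    | zero => simp
    | succ m ih => rw [Finset.sum_range_succ, ih]; push_cast; ring
  have h2 : ∀ m : ℕ, ∑ a ∈ range (m + 1), (a : ℝ) ^ 2 = (m : ℝ) * (m + 1) * (2 * m + 1) / 6 := by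
    intro m
    induction m with
    | zero => simp
    | succ m ih => rw [Finset.sum_range_succ, ih]; push_cast; ring
  have e1 : ∑ a : Fin (M + 1), (a : ℝ) = (M : ℝ) * (M + 1) / 2 := by
    rw [Fin.sum_univ_eq_sum_range (fun a => (a : ℝ))]; exact h1 M
  have e2 : ∑ a : Fin (M + 1), (a : ℝ) ^ 2 = (M : ℝ) * (M + 1) * (2 * M + 1) / 6 := by
    rw [Fin.sum_univ_eq_sum_range (fun a => (a : ℝ) ^ 2)]; exact h2 M
  have e3 : ∀ a : Fin (M + 1), ∑ b : Fin (M + 1), ((a : ℝ) - (b : ℝ)) ^ 2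
      = ((M : ℝ) + 1) * (a : ℝ) ^ 2 - 2 * (a : ℝ) * ((M : ℝ) * (M + 1) / 2)
        + (M : ℝ) * (M + 1) * (2 * M + 1) / 6 := by
    intro a
    rw [← e1, ← e2, Finset.mul_sum]
    have : ∑ b : Fin (M + 1), ((a : ℝ) - (b : ℝ)) ^ 2
        = ∑ b : Fin (M + 1), ((a : ℝ) ^ 2 - 2 * (a : ℝ) * (b : ℝ) + (b : ℝ) ^ 2) :=
      Finset.sum_congr rfl fun b _ => by ring
    rw [this, Finset.sum_add_distrib, Finset.sum_sub_distrib, Finset.sum_const, Finset.card_univ,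
      Fintype.card_fin, nsmul_eq_mul]
    push_cast
    ring
  simp only [e3]
  rw [Finset.sum_add_distrib, Finset.sum_sub_distrib, ← Finset.mul_sum, ← Finset.sum_mul,
    ← Finset.mul_sum, e1, e2, Finset.sum_const, Finset.card_univ, Fintype.card_fin, nsmul_eq_mul]
  push_cast
  ring

/-- The average of the `p`-th power of the distance on the grid is large. -/
theorem grid_lower (M : ℕ) (hM : 0 < M) (α : ℝ) (hα : α = 1 / (M : ℝ) ^ 2) (q : ℝ) (hq : 1 ≤ q) :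
    ((M : ℝ) * (Real.exp (-2) / 6)) ^ q
        * ((∑ a : Fin (M + 1), Real.exp (-α * (a : ℝ) ^ 2)) ^ M) ^ 2
      ≤ ∑ x : Fin M → Fin (M + 1), ∑ y : Fin M → Fin (M + 1),
        (∏ i, Real.exp (-α * (x i : ℝ) ^ 2)) * (∏ i, Real.exp (-α * (y i : ℝ) ^ 2))
          * (α * ∑ i, ((x i : ℝ) - (y i : ℝ)) ^ 2) ^ q := by
  have hM' : (0 : ℝ) < M := by exact_mod_cast hM
  have hα0 : 0 < α := by rw [hα]; positivity
  obtain ⟨γ, hγ⟩ : ∃ γ : Fin (M + 1) → ℝ, γ = fun a : Fin (M + 1) => Real.exp (-α * (a : ℝ) ^ 2) :=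
    ⟨_, rfl⟩
  have hγa : ∀ a : Fin (M + 1), Real.exp (-α * (a : ℝ) ^ 2) = γ a := fun a => by rw [hγ]
  have hγ0 : ∀ a, 0 < γ a := fun a => by rw [hγ]; exact Real.exp_pos _
  simp only [hγa]
  obtain ⟨Z, hZ⟩ : ∃ Z, Z = ∑ a, γ a := ⟨_, rfl⟩
  rw [← hZ]
  have hZ0 : 0 < Z := by rw [hZ]; exact Finset.sum_pos (fun a _ => hγ0 a) ⟨0, Finset.mem_univ _⟩
  have hcast : ∀ a : Fin (M + 1), (a : ℝ) ≤ M := fun a => by
    have := a.isLt
    exact_mod_cast Nat.lt_succ_iff.mp this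
  have hγ1 : ∀ a, γ a ≤ 1 := fun a => by
    rw [hγ]
    simp only
    rw [Real.exp_le_one_iff]
    nlinarith [sq_nonneg (a : ℝ)]
  have hγ2 : ∀ a, Real.exp (-1) ≤ γ a := fun a => by
    rw [hγ]
    simp only
    apply Real.exp_le_exp.mpr
    have h1 : (a : ℝ) ^ 2 ≤ (M : ℝ) ^ 2 := pow_le_pow_left₀ (Nat.cast_nonneg _) (hcast a) 2
    have h2 : α * (a : ℝ) ^ 2 ≤ 1 := by
      rw [hα, one_div, inv_mul_le_iff₀ (by positivity), mul_one]
      exact h1
    linarith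
  have hZM : Z ≤ M + 1 := by
    rw [hZ]
    calc ∑ a, γ a ≤ ∑ _a : Fin (M + 1), (1 : ℝ) := Finset.sum_le_sum fun a _ => hγ1 a
      _ = M + 1 := by simp
  -- pairs
  have hprod : ∑ z : Fin (M + 1) × Fin (M + 1), γ z.1 * γ z.2 = Z ^ 2 := by
    rw [Fintype.sum_prod_type, hZ, sq, Finset.sum_mul_sum]
  have hvar : Real.exp (-2) / 6 * ∑ z : Fin (M + 1) × Fin (M + 1), γ z.1 * γ z.2
      ≤ ∑ z : Fin (M + 1) × Fin (M + 1), γ z.1 * γ z.2 * (α * ((z.1 : ℝ) - (z.2 : ℝ)) ^ 2) := by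
    rw [hprod]
    have h1 : ∑ z : Fin (M + 1) × Fin (M + 1), Real.exp (-2) * (α * ((z.1 : ℝ) - (z.2 : ℝ)) ^ 2)
        ≤ ∑ z : Fin (M + 1) × Fin (M + 1), γ z.1 * γ z.2 * (α * ((z.1 : ℝ) - (z.2 : ℝ)) ^ 2) := by
      refine Finset.sum_le_sum fun z _ => ?_
      apply mul_le_mul_of_nonneg_right _ (by positivity)
      have h2 : Real.exp (-2) = Real.exp (-1) * Real.exp (-1) := by
        rw [← Real.exp_add]; norm_num
      rw [h2]
      exact mul_le_mul (hγ2 _) (hγ2 _) (Real.exp_nonneg _) (hγ0 _).le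
    refine le_trans ?_ h1
    rw [← Finset.mul_sum, ← Finset.mul_sum, Fintype.sum_prod_type, sum_diff_sq]
    have h3 : Z ^ 2 ≤ ((M : ℝ) + 1) ^ 2 := pow_le_pow_left₀ hZ0.le hZM 2
    have h4 : ((M : ℝ) + 1) ^ 2 / 6 ≤ α * (((M : ℝ) + 1) ^ 2 * M * (M + 2) / 6) := by
      rw [hα]
      have : 1 / (M : ℝ) ^ 2 * (((M : ℝ) + 1) ^ 2 * M * (M + 2) / 6)
          = ((M : ℝ) + 1) ^ 2 / 6 * ((M + 2) / M) := by
        field_simp
      rw [this]
      apply le_mul_of_one_le_right (by positivity)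
      rw [one_le_div hM']
      linarith
    have h5 : 0 < Real.exp (-2) := Real.exp_pos _
    calc Real.exp (-2) / 6 * Z ^ 2 ≤ Real.exp (-2) / 6 * ((M : ℝ) + 1) ^ 2 :=
          mul_le_mul_of_nonneg_left h3 (by positivity)
      _ = Real.exp (-2) * (((M : ℝ) + 1) ^ 2 / 6) := by ring
      _ ≤ _ := mul_le_mul_of_nonneg_left h4 h5.le
  have hlin := lin_avg (fun z : Fin (M + 1) × Fin (M + 1) => γ z.1 * γ z.2)
    (fun z => α * ((z.1 : ℝ) - (z.2 : ℝ)) ^ 2) (Real.exp (-2) / 6)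
    (fun z => mul_nonneg (hγ0 _).le (hγ0 _).le) hvar M
  rw [hprod] at hlin
  have hT : (Z ^ 2) ^ M
      = ∑ z : Fin M → Fin (M + 1) × Fin (M + 1), ∏ i, (γ (z i).1 * γ (z i).2) := by
    rw [← hprod, Fintype.sum_pow]
  have hj := jensen (Finset.univ : Finset (Fin M → Fin (M + 1) × Fin (M + 1)))
    (fun z => ∏ i, (γ (z i).1 * γ (z i).2))
    (fun z => ∑ i, α * (((z i).1 : ℝ) - ((z i).2 : ℝ)) ^ 2)
    (fun z _ => Finset.prod_nonneg fun i _ => mul_nonneg (hγ0 _).le (hγ0 _).le)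
    (fun z _ => Finset.sum_nonneg fun i _ => by positivity)
    ((Z ^ 2) ^ M) ((M : ℝ) * (Real.exp (-2) / 6)) q hT (by positivity) (by positivity) hq hlin
  have hfin : ∑ z : Fin M → Fin (M + 1) × Fin (M + 1), (∏ i, (γ (z i).1 * γ (z i).2))
        * (∑ i, α * (((z i).1 : ℝ) - ((z i).2 : ℝ)) ^ 2) ^ q
      = ∑ x : Fin M → Fin (M + 1), ∑ y : Fin M → Fin (M + 1),
        (∏ i, γ (x i)) * (∏ i, γ (y i)) * (α * ∑ i, ((x i : ℝ) - (y i : ℝ)) ^ 2) ^ q := by
    rw [← Fintype.sum_prod_type' (f := fun (x y : Fin M → Fin (M + 1)) =>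
      (∏ i, γ (x i)) * (∏ i, γ (y i)) * (α * ∑ i, ((x i : ℝ) - (y i : ℝ)) ^ 2) ^ q)]
    refine Fintype.sum_equiv (Equiv.arrowProdEquivProdArrow (Fin M) (fun _ => Fin (M + 1))
      (fun _ => Fin (M + 1))) _ _ (fun z => ?_)
    simp only [Equiv.arrowProdEquivProdArrow, Equiv.coe_fn_mk]
    rw [Finset.prod_mul_distrib, Finset.mul_sum]
  rw [← hfin]
  refine le_trans (le_of_eq ?_) hj
  ring

/-- Rademacher sums: the second moment. -/
theorem rad_sq : ∀ (N : ℕ) (a : Fin N → ℝ),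
    ∑ ω : Fin N → Bool, (∑ i, a i * (if ω i then (1 : ℝ) else -1)) ^ 2
      = 2 ^ N * ∑ i, a i ^ 2 := by
  intro N
  induction N with
  | zero => intro a; simp
  | succ N ih =>
    intro a
    rw [sum_cons, Fintype.sum_bool]
    simp only [Fin.sum_univ_succ, Fin.cons_zero, Fin.cons_succ, if_true, Bool.false_eq_true,
      if_false]
    rw [← Finset.sum_add_distrib]
    have h1 : ∀ ω : Fin N → Bool,
        (a 0 * 1 + ∑ i : Fin N, a i.succ * (if ω i then (1 : ℝ) else -1)) ^ 2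
        + (a 0 * -1 + ∑ i : Fin N, a i.succ * (if ω i then (1 : ℝ) else -1)) ^ 2
        = 2 * a 0 ^ 2 + 2 * (∑ i : Fin N, a i.succ * (if ω i then (1 : ℝ) else -1)) ^ 2 := by
      intro ω
      ring
    simp only [h1]
    rw [Finset.sum_add_distrib, ← Finset.mul_sum, ← Finset.mul_sum, ih (fun i => a i.succ),
      Finset.sum_const, Finset.card_univ]
    simp only [Fintype.card_pi, Fintype.card_bool, Finset.prod_const, Finset.card_univ,
      Fintype.card_fin, nsmul_eq_mul]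
    push_cast
    ring

/-- Rademacher sums: the exponential moment. -/
theorem rad_exp : ∀ (N : ℕ) (a : Fin N → ℝ),
    ∑ ω : Fin N → Bool, Real.exp (∑ i, a i * (if ω i then (1 : ℝ) else -1))
      ≤ 2 ^ N * Real.exp ((∑ i, a i ^ 2) / 2) := by
  intro N
  induction N with
  | zero => intro a; simp
  | succ N ih =>
    intro a
    rw [sum_cons, Fintype.sum_bool]
    simp only [Fin.sum_univ_succ, Fin.cons_zero, Fin.cons_succ, if_true, Bool.false_eq_true,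
      if_false, Real.exp_add]
    rw [← Finset.mul_sum, ← Finset.mul_sum, ← add_mul]
    have h1 := ih (fun i => a i.succ)
    have h2 : Real.exp (a 0 * 1) + Real.exp (a 0 * -1) ≤ 2 * Real.exp (a 0 ^ 2 / 2) := by
      have := Real.cosh_le_exp_half_sq (a 0)
      rw [Real.cosh_eq] at this
      rw [mul_one, mul_neg_one]
      linarith
    calc _ ≤ (2 * Real.exp (a 0 ^ 2 / 2))
          * (2 ^ N * Real.exp ((∑ i : Fin N, a i.succ ^ 2) / 2)) :=
          mul_le_mul h2 h1 (Finset.sum_nonneg fun _ _ => Real.exp_nonneg _) (by positivity)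
      _ = _ := by
          rw [add_div, Real.exp_add]
          ring

/-- Khinchine's inequality, lower bound. -/
theorem rad_lower (N : ℕ) (a : Fin N → ℝ) (p : ℝ) (hp : 2 ≤ p) :
    2 ^ N * (Real.sqrt (∑ i, a i ^ 2)) ^ p
      ≤ ∑ ω : Fin N → Bool, |∑ i, a i * (if ω i then (1 : ℝ) else -1)| ^ p := by
  obtain ⟨S, hS⟩ : ∃ S, S = ∑ i, a i ^ 2 := ⟨_, rfl⟩
  have hS0 : 0 ≤ S := by rw [hS]; positivity
  have h1 := jensen (Finset.univ : Finset (Fin N → Bool)) (fun _ => (1 : ℝ))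
    (fun ω => (∑ i, a i * (if ω i then (1 : ℝ) else -1)) ^ 2) (fun _ _ => zero_le_one)
    (fun _ _ => sq_nonneg _) (2 ^ N) S (p / 2) (by simp) (by positivity) hS0
    (by linarith) (by
      simp only [one_mul]
      rw [rad_sq, ← hS, mul_comm])
  have h2 : ∀ r : ℝ, (r ^ 2) ^ (p / 2) = |r| ^ p := by
    intro r
    rw [← sq_abs, ← Real.rpow_natCast |r| 2, ← Real.rpow_mul (abs_nonneg r)]
    congr 1
    push_cast
    ring
  simp only [one_mul, h2] at h1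
  have h3 : S ^ (p / 2) = (Real.sqrt S) ^ p := by
    rw [Real.sqrt_eq_rpow, ← Real.rpow_mul hS0]
    congr 1
    ring
  rw [h3] at h1
  rw [← hS, mul_comm]
  exact h1

/-- Khinchine's inequality, upper bound. -/
theorem rad_upper (N : ℕ) (a : Fin N → ℝ) (p : ℝ) (hp : 0 < p) :
    ∑ ω : Fin N → Bool, |∑ i, a i * (if ω i then (1 : ℝ) else -1)| ^ p
      ≤ 2 ^ N * (2 * Real.exp (1 / 2) * p ^ p) * (Real.sqrt (∑ i, a i ^ 2)) ^ p := by
  obtain ⟨S, hS⟩ : ∃ S, S = ∑ i, a i ^ 2 := ⟨_, rfl⟩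
  have hS0 : 0 ≤ S := by rw [hS]; positivity
  rw [← hS]
  rcases hS0.eq_or_lt with h0 | h0
  · have ha : ∀ i, a i = 0 := by
      intro i
      have h1 := (Finset.sum_eq_zero_iff_of_nonneg (fun i _ => sq_nonneg (a i))).mp
        (hS.symm.trans h0.symm) i (Finset.mem_univ i)
      exact pow_eq_zero_iff (two_ne_zero) |>.mp h1
    simp only [ha, zero_mul, Finset.sum_const_zero, abs_zero, Real.zero_rpow hp.ne']
    positivity
  · obtain ⟨r, hr⟩ : ∃ r, r = Real.sqrt S := ⟨_, rfl⟩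
    have hr0 : 0 < r := by rw [hr]; exact Real.sqrt_pos.mpr h0
    have hr2 : r ^ 2 = S := by rw [hr]; exact Real.sq_sqrt hS0
    rw [← hr]
    have hb : ∑ i, (a i / r) ^ 2 = 1 := by
      simp only [div_pow]
      rw [← Finset.sum_div, ← hS, hr2, div_self h0.ne']
    have h1 := rad_exp N (fun i => a i / r)
    have h2 := rad_exp N (fun i => -(a i / r))
    have hb' : ∑ i, (-(a i / r)) ^ 2 = 1 := by
      simp only [neg_sq]
      exact hb
    rw [hb] at h1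
    rw [hb'] at h2
    have h3 : ∀ ω : Fin N → Bool, |∑ i, a i * (if ω i then (1 : ℝ) else -1)| ^ p
        ≤ r ^ p * (p ^ p * (Real.exp (∑ i, a i / r * (if ω i then (1 : ℝ) else -1))
          + Real.exp (∑ i, -(a i / r) * (if ω i then (1 : ℝ) else -1)))) := by
      intro ω
      obtain ⟨t, ht⟩ : ∃ t, t = ∑ i, a i / r * (if ω i then (1 : ℝ) else -1) := ⟨_, rfl⟩
      have e1 : ∑ i, a i * (if ω i then (1 : ℝ) else -1) = r * t := by
        rw [ht, Finset.mul_sum]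
        refine Finset.sum_congr rfl fun i _ => ?_
        field_simp
      have e2 : ∑ i, -(a i / r) * (if ω i then (1 : ℝ) else -1) = -t := by
        rw [ht, ← Finset.sum_neg_distrib]
        refine Finset.sum_congr rfl fun i _ => ?_
        ring
      rw [e2, ← ht, e1, abs_mul, abs_of_pos hr0, Real.mul_rpow hr0.le (abs_nonneg t)]
      apply mul_le_mul_of_nonneg_left _ (Real.rpow_nonneg hr0.le _)
      refine (rpow_le_exp |t| p (abs_nonneg t) hp).trans ?_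
      apply mul_le_mul_of_nonneg_left _ (Real.rpow_nonneg hp.le _)
      rcases abs_cases t with h | h
      · rw [h.1]
        have := Real.exp_nonneg (-t)
        linarith
      · rw [h.1]
        have := Real.exp_nonneg t
        linarith
    refine (Finset.sum_le_sum fun ω _ => h3 ω).trans ?_
    rw [← Finset.mul_sum, ← Finset.mul_sum, Finset.sum_add_distrib]
    calc r ^ p * (p ^ p * (_ + _))
        ≤ r ^ p * (p ^ p * (2 ^ N * Real.exp (1 / 2) + 2 ^ N * Real.exp (1 / 2))) := by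
          apply mul_le_mul_of_nonneg_left _ (Real.rpow_nonneg hr0.le _)
          apply mul_le_mul_of_nonneg_left _ (Real.rpow_nonneg hp.le _)
          exact add_le_add h1 h2
      _ = _ := by ring

end Vale.Agent.P249
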