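import Vale.Agent.P249.Lower3

/-!
The dimension needed for the grid.
-/

namespace Vale.Agent.P249

open Finset

/-- The Rademacher sum attached to a difference of two grid points. -/
theorem grid_dim (M : ℕ) (hM : 0 < M) (p D : ℝ) (hp : 2 ≤ p) (hD : 0 < D) (d : ℕ)
    (f : (Fin M → Fin (M + 1)) → Fin d → ℝ) (s : ℝ) (hs : 0 < s)
    (R : (Fin M → Fin (M + 1)) → (Fin M → Fin (M + 1)) → ℝ)
    (hR : ∀ x y, R x y = (∑ ω : Fin M → Bool,
      |∑ i, ((x i : ℝ) - (y i : ℝ)) * (if ω i then (1 : ℝ) else -1)| ^ p) ^ (1 / p))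
    (h1 : ∀ x y, s * R x y ≤ (∑ k, |f x k - f y k| ^ p) ^ (1 / p))
    (h2 : ∀ x y, (∑ k, |f x k - f y k| ^ p) ^ (1 / p) ≤ D * s * R x y) :
    ((M : ℝ) * (Real.exp (-2) / 6)) ^ (p / 2)
      ≤ d * (D ^ p * (2 * Real.exp (1 / 2) * p ^ p) * p ^ p * (2 * Real.exp (5 / 2))) := by
  have hM' : (0 : ℝ) < M := by exact_mod_cast hM
  have hp0 : 0 < p := by linarith
  have hpp : 1 / p * p = 1 := by field_simp
  obtain ⟨α, hα⟩ : ∃ α : ℝ, α = 1 / (M : ℝ) ^ 2 := ⟨_, rfl⟩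
  obtain ⟨K, hK⟩ : ∃ K : ℝ, K = 2 * Real.exp (1 / 2) * p ^ p := ⟨_, rfl⟩
  have hK0 : 0 < K := by rw [hK]; positivity
  obtain ⟨r, hr⟩ : ∃ r : (Fin M → Fin (M + 1)) → (Fin M → Fin (M + 1)) → ℝ,
    r = fun x y => Real.sqrt (∑ i, ((x i : ℝ) - (y i : ℝ)) ^ 2) := ⟨_, rfl⟩
  have hrxy : ∀ x y, Real.sqrt (∑ i, ((x i : ℝ) - (y i : ℝ)) ^ 2) = r x y :=
    fun x y => by rw [hr]
  have hr0 : ∀ x y, 0 ≤ r x y := fun x y => by rw [hr]; exact Real.sqrt_nonneg _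
  have hR0 : ∀ x y, 0 ≤ R x y := fun x y => by
    rw [hR]
    exact Real.rpow_nonneg (Finset.sum_nonneg fun _ _ => Real.rpow_nonneg (abs_nonneg _) _) _
  have hRp : ∀ x y, R x y ^ p = ∑ ω : Fin M → Bool,
      |∑ i, ((x i : ℝ) - (y i : ℝ)) * (if ω i then (1 : ℝ) else -1)| ^ p := fun x y => by
    rw [hR, ← Real.rpow_mul (Finset.sum_nonneg fun _ _ => Real.rpow_nonneg (abs_nonneg _) _),
      hpp, Real.rpow_one]
  have hRlow : ∀ x y, 2 ^ M * r x y ^ p ≤ R x y ^ p := fun x y => by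
    rw [hRp, ← hrxy]
    exact rad_lower M (fun i => (x i : ℝ) - (y i : ℝ)) p hp
  have hRup : ∀ x y, R x y ^ p ≤ 2 ^ M * K * r x y ^ p := fun x y => by
    rw [hRp, ← hrxy, hK]
    exact rad_upper M (fun i => (x i : ℝ) - (y i : ℝ)) p hp0
  have hSp : ∀ x y, ((∑ k, |f x k - f y k| ^ p) ^ (1 / p)) ^ p = ∑ k, |f x k - f y k| ^ p :=
    fun x y => by
      rw [← Real.rpow_mul (Finset.sum_nonneg fun _ _ => Real.rpow_nonneg (abs_nonneg _) _),
        hpp, Real.rpow_one]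
  have hlow : ∀ x y, s ^ p * 2 ^ M * r x y ^ p ≤ ∑ k, |f x k - f y k| ^ p := by
    intro x y
    have e1 := Real.rpow_le_rpow (mul_nonneg hs.le (hR0 x y)) (h1 x y) hp0.le
    rw [hSp, Real.mul_rpow hs.le (hR0 x y)] at e1
    refine le_trans ?_ e1
    rw [mul_assoc]
    exact mul_le_mul_of_nonneg_left (hRlow x y) (Real.rpow_nonneg hs.le _)
  have hup : ∀ x y, ∑ k, |f x k - f y k| ^ p ≤ D ^ p * s ^ p * 2 ^ M * K * r x y ^ p := by
    intro x y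
    have e1 := Real.rpow_le_rpow (Real.rpow_nonneg
      (Finset.sum_nonneg fun _ _ => Real.rpow_nonneg (abs_nonneg _) _) _) (h2 x y) hp0.le
    rw [hSp, Real.mul_rpow (mul_pos hD hs).le (hR0 x y), Real.mul_rpow hD.le hs.le] at e1
    refine e1.trans ?_
    have e2 : D ^ p * s ^ p * 2 ^ M * K * r x y ^ p = D ^ p * s ^ p * (2 ^ M * K * r x y ^ p) := by
      ring
    rw [e2]
    exact mul_le_mul_of_nonneg_left (hRup x y) (by positivity)
  obtain ⟨B, hB⟩ : ∃ B : ℝ, B = D ^ p * s ^ p * 2 ^ M * K := ⟨_, rfl⟩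
  have hB0 : 0 < B := by rw [hB]; positivity
  rw [← hB] at hup
  obtain ⟨L, hL⟩ : ∃ L : ℝ, L = B ^ (1 / p) * M := ⟨_, rfl⟩
  have hL0 : 0 < L := by rw [hL]; positivity
  have hLp : L ^ p = B * (M : ℝ) ^ p := by
    rw [hL, Real.mul_rpow (by positivity) hM'.le, ← Real.rpow_mul hB0.le, hpp, Real.rpow_one]
  have hcoord : ∀ k, ∀ x y, |f x k - f y k|
      ≤ L * (Real.sqrt (∑ i, ((x i : ℝ) - (y i : ℝ)) ^ 2) / M) := by
    intro k x y
    rw [hrxy]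
    have e1 : |f x k - f y k| ^ p ≤ (B ^ (1 / p) * r x y) ^ p := by
      rw [Real.mul_rpow (by positivity) (hr0 x y), ← Real.rpow_mul hB0.le, hpp, Real.rpow_one]
      refine le_trans ?_ (hup x y)
      exact Finset.single_le_sum (f := fun k => |f x k - f y k| ^ p)
        (fun _ _ => Real.rpow_nonneg (abs_nonneg _) _) (Finset.mem_univ k)
    have e2 : |f x k - f y k| ≤ B ^ (1 / p) * r x y :=
      (Real.rpow_le_rpow_iff (abs_nonneg _) (mul_nonneg (by positivity) (hr0 x y)) hp0).mp e1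
    refine e2.trans (le_of_eq ?_)
    rw [hL]
    field_simp
  obtain ⟨W, hW⟩ : ∃ W : (Fin M → Fin (M + 1)) → ℝ,
    W = fun x => ∏ i, Real.exp (-α * (x i : ℝ) ^ 2) := ⟨_, rfl⟩
  have hWx : ∀ x, (∏ i, Real.exp (-α * (x i : ℝ) ^ 2)) = W x := fun x => by rw [hW]
  have hW0 : ∀ x, 0 ≤ W x := fun x => by rw [hW]; positivity
  obtain ⟨Z, hZ⟩ : ∃ Z, Z = ((∑ a : Fin (M + 1), Real.exp (-α * (a : ℝ) ^ 2)) ^ M) ^ 2 := ⟨_, rfl⟩
  have hZ0 : 0 < Z := by
    rw [hZ]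
    have : 0 < ∑ a : Fin (M + 1), Real.exp (-α * (a : ℝ) ^ 2) :=
      Finset.sum_pos (fun a _ => Real.exp_pos _) ⟨0, Finset.mem_univ _⟩
    exact pow_pos (pow_pos this M) 2
  have hconc : ∀ k, ∑ x, ∑ y, W x * W y * |f x k - f y k| ^ p
      ≤ L ^ p * p ^ p * (2 * Real.exp (5 / 2)) * Z := by
    intro k
    have := concentration M hM α hα (fun x => f x k) L hL0 (hcoord k) p hp0
    simp only [hWx] at this
    rw [hZ]
    exact this
  have hgl := grid_lower M hM α hα (p / 2) (by linarith)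
  simp only [hWx] at hgl
  rw [← hZ] at hgl
  have hα2 : ∀ x y, (α * ∑ i, ((x i : ℝ) - (y i : ℝ)) ^ 2) ^ (p / 2) = r x y ^ p / (M : ℝ) ^ p := by
    intro x y
    obtain ⟨S, hS⟩ : ∃ S, S = ∑ i, ((x i : ℝ) - (y i : ℝ)) ^ 2 := ⟨_, rfl⟩
    have hS0 : 0 ≤ S := by rw [hS]; positivity
    rw [← hrxy, ← hS, ← Real.div_rpow (Real.sqrt_nonneg _) hM'.le]
    have e1 : α * S = (Real.sqrt S / M) ^ 2 := by
      rw [div_pow, Real.sq_sqrt hS0, hα]; ring
    have e2 : 0 ≤ Real.sqrt S / M := by positivity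
    rw [e1, ← Real.rpow_natCast (Real.sqrt S / M) 2, ← Real.rpow_mul e2]
    congr 1
    push_cast
    ring
  simp only [hα2] at hgl
  have hMp : 0 < (M : ℝ) ^ p := Real.rpow_pos_of_pos hM' _
  have hsum : ∑ x, ∑ y, W x * W y * ∑ k, |f x k - f y k| ^ p
      ≤ d * (L ^ p * p ^ p * (2 * Real.exp (5 / 2)) * Z) := by
    have e1 : ∑ x, ∑ y, W x * W y * ∑ k, |f x k - f y k| ^ p
        = ∑ k, ∑ x, ∑ y, W x * W y * |f x k - f y k| ^ p := by
      simp only [Finset.mul_sum]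
      have e2 : ∀ x, ∑ y, ∑ k, W x * W y * |f x k - f y k| ^ p
          = ∑ k, ∑ y, W x * W y * |f x k - f y k| ^ p := fun x => Finset.sum_comm
      simp only [e2]
      exact Finset.sum_comm
    rw [e1]
    calc ∑ k, ∑ x, ∑ y, W x * W y * |f x k - f y k| ^ p
        ≤ ∑ _k : Fin d, (L ^ p * p ^ p * (2 * Real.exp (5 / 2)) * Z) :=
          Finset.sum_le_sum fun k _ => hconc k
      _ = _ := by
          rw [Finset.sum_const, Finset.card_univ, Fintype.card_fin, nsmul_eq_mul]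
  have hsum2 : s ^ p * 2 ^ M * (M : ℝ) ^ p
        * ∑ x, ∑ y, W x * W y * (r x y ^ p / (M : ℝ) ^ p)
      ≤ ∑ x, ∑ y, W x * W y * ∑ k, |f x k - f y k| ^ p := by
    rw [Finset.mul_sum]
    refine Finset.sum_le_sum fun x _ => ?_
    rw [Finset.mul_sum]
    refine Finset.sum_le_sum fun y _ => ?_
    calc s ^ p * 2 ^ M * (M : ℝ) ^ p * (W x * W y * (r x y ^ p / (M : ℝ) ^ p))
        = W x * W y * (s ^ p * 2 ^ M * r x y ^ p) := by field_simp
      _ ≤ _ := mul_le_mul_of_nonneg_left (hlow x y) (mul_nonneg (hW0 x) (hW0 y))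
  have hP : 0 < s ^ p * 2 ^ M * (M : ℝ) ^ p := by positivity
  have h5 := (mul_le_mul_of_nonneg_left hgl hP.le).trans (hsum2.trans hsum)
  rw [hLp, hB] at h5
  have h6 : s ^ p * 2 ^ M * (M : ℝ) ^ p * Z * ((M : ℝ) * (Real.exp (-2) / 6)) ^ (p / 2)
      ≤ s ^ p * 2 ^ M * (M : ℝ) ^ p * Z
        * (d * (D ^ p * K * p ^ p * (2 * Real.exp (5 / 2)))) := by
    refine le_trans (le_of_eq (by ring)) (h5.trans (le_of_eq (by ring)))
  rw [← hK]
  exact le_of_mul_le_mul_left h6 (by positivity)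

end Vale.Agent.P249
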