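import Vale.Agent.P249.Lower4

/-!
Lower bound for the dimension.
-/

namespace Vale.Agent.P249

open Finset MeasureTheory
open scoped ENNReal

universe u

/-- The Rademacher embedding of the Euclidean space into an `L_p` space. -/
theorem signs_lp (M : ℕ) (p : ℝ) (hp : 1 ≤ p) :
    ∃ (Ω : Type u) (_ : MeasurableSpace Ω) (μ : Measure Ω)
      (X : (Fin M → ℝ) → Lp ℝ (ENNReal.ofReal p) μ), ∀ x y,
      ‖X x - X y‖ = (∑ ω : Fin M → Bool,
        |∑ i, (x i - y i) * (if ω i then (1 : ℝ) else -1)| ^ p) ^ (1 / p) := by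
  have hp0 : 0 < p := by linarith
  have hne0 : ENNReal.ofReal p ≠ 0 := by simpa using hp0
  let _ : MeasurableSpace (ULift.{u} (Fin M → Bool)) := ⊤
  have : DiscreteMeasurableSpace (ULift.{u} (Fin M → Bool)) := ⟨fun _ => trivial⟩
  obtain ⟨F, hF⟩ : ∃ F : (Fin M → ℝ) → ULift.{u} (Fin M → Bool) → ℝ,
    F = fun x ω => ∑ i, x i * (if ω.down i then (1 : ℝ) else -1) := ⟨_, rfl⟩
  have hmem : ∀ x, MemLp (F x) (ENNReal.ofReal p)
      (Measure.count : Measure (ULift.{u} (Fin M → Bool))) := fun x => MemLp.of_discrete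
  refine ⟨ULift.{u} (Fin M → Bool), inferInstance, Measure.count,
    fun x => (hmem x).toLp (F x), fun x y => ?_⟩
  rw [← MemLp.toLp_sub, Lp.norm_toLp,
    ((hmem x).sub (hmem y)).eLpNorm_eq_integral_rpow_norm hne0 ENNReal.ofReal_ne_top,
    ENNReal.toReal_ofReal (by
      apply Real.rpow_nonneg
      apply integral_nonneg
      intro ω
      exact Real.rpow_nonneg (norm_nonneg _) _), ENNReal.toReal_ofReal hp0.le, one_div,
    integral_count]
  congr 1
  refine Fintype.sum_equiv Equiv.ulift _ _ (fun ω => ?_)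
  rw [Real.norm_eq_abs, Pi.sub_apply, hF]
  simp only [Equiv.ulift_apply]
  rw [← Finset.sum_sub_distrib]
  congr 2
  refine Finset.sum_congr rfl fun i _ => ?_
  ring

theorem choose_M (n : ℕ) (hn : 16 ≤ n) : ∃ M : ℕ, 0 < M ∧ (M + 1) ^ M ≤ n ∧
    Real.log n / Real.log (Real.log n) / 4 ≤ M ∧ 0 < Real.log n / Real.log (Real.log n) := by
  have hn' : (16 : ℝ) ≤ n := by exact_mod_cast hn
  have hn0 : (0 : ℝ) < n := by linarith
  obtain ⟨y, hy⟩ : ∃ y, y = Real.log n := ⟨_, rfl⟩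
  rw [← hy]
  have hlog2 := Real.log_two_gt_d9
  have hlog2' := Real.log_two_lt_d9
  have hy1 : 2.77 ≤ y := by
    have h16 : Real.log 16 = 4 * Real.log 2 := by
      rw [show (16 : ℝ) = 2 ^ 4 by norm_num, Real.log_pow]
      norm_num
    have h2 : Real.log 16 ≤ Real.log n := Real.log_le_log (by norm_num) hn'
    rw [hy]
    linarith
  have hy0 : 0 < y := by linarith
  obtain ⟨l, hl⟩ : ∃ l, l = Real.log y := ⟨_, rfl⟩
  rw [← hl]
  have hl1 : 1 ≤ l := by
    rw [hl, Real.le_log_iff_exp_le hy0]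
    have := Real.exp_one_lt_d9
    linarith
  have hl2 : 2 * l ≤ y := by
    have h1 : Real.log (y / 2) ≤ y / 2 - 1 := Real.log_le_sub_one_of_pos (by positivity)
    rw [Real.log_div hy0.ne' (by norm_num), ← hl] at h1
    linarith
  have hl0 : 0 < l := by linarith
  have ht1 : 1 ≤ y / (2 * l) := by
    rw [one_le_div (by positivity)]
    exact hl2
  have ht0 : 0 ≤ y / (2 * l) := by positivity
  refine ⟨⌊y / (2 * l)⌋₊, Nat.floor_pos.mpr ht1, ?_, ?_, by positivity⟩
  · obtain ⟨M, hM⟩ : ∃ M, M = ⌊y / (2 * l)⌋₊ := ⟨_, rfl⟩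
    rw [← hM]
    have hM1 : (M : ℝ) ≤ y / (2 * l) := by rw [hM]; exact Nat.floor_le ht0
    have hM2 : (M : ℝ) + 1 ≤ y ^ 2 := by
      have : y / (2 * l) ≤ y / 2 := by
        apply div_le_div_of_nonneg_left hy0.le (by norm_num)
        linarith
      nlinarith
    have hM0 : (0 : ℝ) ≤ M := Nat.cast_nonneg M
    have hM3 : Real.log ((M : ℝ) + 1) ≤ 2 * l := by
      have h1 := Real.log_le_log (by positivity) hM2
      rw [Real.log_pow, ← hl] at h1
      push_cast at h1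
      exact h1
    have hM4 : (M : ℝ) * Real.log ((M : ℝ) + 1) ≤ y := by
      calc (M : ℝ) * Real.log ((M : ℝ) + 1) ≤ (M : ℝ) * (2 * l) :=
            mul_le_mul_of_nonneg_left hM3 hM0
        _ ≤ y / (2 * l) * (2 * l) := mul_le_mul_of_nonneg_right hM1 (by positivity)
        _ = y := div_mul_cancel₀ _ (by positivity)
    have h5 : (((M + 1) ^ M : ℕ) : ℝ) ≤ n := by
      push_cast
      have h6 : ((M : ℝ) + 1) ^ M = Real.exp ((M : ℝ) * Real.log ((M : ℝ) + 1)) := by
        rw [Real.exp_nat_mul, Real.exp_log (by positivity)]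
      rw [h6]
      calc Real.exp ((M : ℝ) * Real.log ((M : ℝ) + 1)) ≤ Real.exp y := Real.exp_le_exp.mpr hM4
        _ = n := by rw [hy, Real.exp_log hn0]
    exact_mod_cast h5
  · have h1 := Nat.lt_floor_add_one (y / (2 * l))
    have h2 : (1 : ℝ) ≤ (⌊y / (2 * l)⌋₊ : ℝ) := by
      exact_mod_cast Nat.floor_pos.mpr ht1
    have h3 : y / l / 4 = y / (2 * l) / 2 := by field_simp; ring
    rw [h3]
    linarith

/-- Lower bound for the dimension. -/
theorem lower (p D : ℝ) (hp : 2 ≤ p) (hD : 0 < D) :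
    ∃ c : ℝ, 0 < c ∧ ∀ n : ℕ, 16 ≤ n → ∀ d : ℕ,
      (∀ (Ω : Type u) [MeasurableSpace Ω] (μ : Measure Ω)
        (X : Fin n → Lp ℝ (ENNReal.ofReal p) μ), Function.Injective X →
        ∃ f : Fin n → Fin d → ℝ, ∃ s : ℝ, 0 < s ∧ ∀ i j,
          s * ‖X i - X j‖ ≤ (∑ k, |f i k - f j k| ^ p) ^ (1 / p) ∧
          (∑ k, |f i k - f j k| ^ p) ^ (1 / p) ≤ D * s * ‖X i - X j‖) →
      c * (Real.log n / Real.log (Real.log n)) ^ (p / 2) ≤ d := by
  classical
  have hp0 : 0 < p := by linarith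
  obtain ⟨K, hK⟩ : ∃ K : ℝ, K = D ^ p * (2 * Real.exp (1 / 2) * p ^ p) * p ^ p
    * (2 * Real.exp (5 / 2)) := ⟨_, rfl⟩
  have hK0 : 0 < K := by rw [hK]; positivity
  refine ⟨(Real.exp (-2) / 24) ^ (p / 2) / K, by positivity, fun n hn d hred => ?_⟩
  obtain ⟨M, hM, hMn, hMlog, hpos⟩ := choose_M n hn
  obtain ⟨Ω, mΩ, μ, X, hX⟩ := signs_lp.{u} M p (by linarith)
  have hfact : Fact (1 ≤ ENNReal.ofReal p) := ⟨by
    rw [← ENNReal.ofReal_one]
    exact ENNReal.ofReal_le_ofReal (by linarith)⟩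
  have hXinj : Function.Injective X := by
    intro x y hxy
    have h1 := hX x y
    rw [hxy, sub_self, norm_zero] at h1
    have h2 := rad_lower M (fun i => x i - y i) p hp
    have h3 : ∑ ω : Fin M → Bool,
        |∑ i, (x i - y i) * (if ω i then (1 : ℝ) else -1)| ^ p = 0 := by
      have h4 : 0 ≤ ∑ ω : Fin M → Bool,
        |∑ i, (x i - y i) * (if ω i then (1 : ℝ) else -1)| ^ p :=
        Finset.sum_nonneg fun _ _ => Real.rpow_nonneg (abs_nonneg _) _
      exact ((Real.rpow_eq_zero h4 (by positivity)).mp h1.symm)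
    rw [h3] at h2
    have h5 : 0 ≤ Real.sqrt (∑ i, (x i - y i) ^ 2) := Real.sqrt_nonneg _
    have h6 : (Real.sqrt (∑ i, (x i - y i) ^ 2)) ^ p ≤ 0 := by
      by_contra h7
      push Not at h7
      have : 0 < 2 ^ M * (Real.sqrt (∑ i, (x i - y i) ^ 2)) ^ p := by positivity
      linarith
    have h7 : (Real.sqrt (∑ i, (x i - y i) ^ 2)) ^ p = 0 :=
      le_antisymm h6 (Real.rpow_nonneg h5 _)
    have h8 : Real.sqrt (∑ i, (x i - y i) ^ 2) = 0 := (Real.rpow_eq_zero h5 hp0.ne').mp h7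
    have h9 : ∑ i, (x i - y i) ^ 2 = 0 :=
      (Real.sqrt_eq_zero (Finset.sum_nonneg fun _ _ => sq_nonneg _)).mp h8
    funext i
    have h10 := (Finset.sum_eq_zero_iff_of_nonneg (fun i _ => sq_nonneg (x i - y i))).mp h9 i
      (Finset.mem_univ i)
    have h11 := pow_eq_zero_iff (two_ne_zero) |>.mp h10
    linarith
  have : Infinite (Lp ℝ (ENNReal.ofReal p) μ) := by
    refine Infinite.of_injective (fun t : ℝ => X (fun _ => t)) ?_
    intro t t' htt
    have := congrFun (hXinj htt) ⟨0, hM⟩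
    exact this
  obtain ⟨ι, hι⟩ : ∃ ι : (Fin M → Fin (M + 1)) → Lp ℝ (ENNReal.ofReal p) μ,
    ι = fun x => X (fun i => ((x i : ℕ) : ℝ)) := ⟨_, rfl⟩
  have hιinj : Function.Injective ι := by
    intro x y hxy
    rw [hι] at hxy
    have h1 := hXinj hxy
    funext i
    have h2 : ((x i : ℕ) : ℝ) = ((y i : ℕ) : ℝ) := congrFun h1 i
    exact Fin.ext (by exact_mod_cast h2)
  have hcard : (Finset.univ.image ι).card ≤ n := by
    rw [Finset.card_image_of_injective _ hιinj, Finset.card_univ]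
    simp only [Fintype.card_pi, Fintype.card_fin, Finset.prod_const, Finset.card_univ]
    exact hMn
  obtain ⟨T, hT1, hT2⟩ := Infinite.exists_superset_card_eq (Finset.univ.image ι) n hcard
  obtain ⟨e⟩ : Nonempty (Fin n ≃ T) := ⟨(T.equivFinOfCardEq hT2).symm⟩
  obtain ⟨f, s, hs, hf⟩ := hred Ω μ (fun i => (e i : Lp ℝ (ENNReal.ofReal p) μ))
    (Subtype.val_injective.comp e.injective)
  have hιT : ∀ x, ι x ∈ T := fun x => hT1 (Finset.mem_image_of_mem _ (Finset.mem_univ x))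
  have hidx : ∀ x, (e (e.symm ⟨ι x, hιT x⟩) : Lp ℝ (ENNReal.ofReal p) μ) = ι x := fun x => by
    rw [Equiv.apply_symm_apply]
  have hmain := grid_dim M hM p D hp hD d (fun x => f (e.symm ⟨ι x, hιT x⟩)) s hs
    (fun x y => ‖ι x - ι y‖) (fun x y => by rw [hι]; exact hX _ _)
    (fun x y => by
      have := (hf (e.symm ⟨ι x, hιT x⟩) (e.symm ⟨ι y, hιT y⟩)).1
      rw [hidx, hidx] at this
      exact this)
    (fun x y => by
      have := (hf (e.symm ⟨ι x, hιT x⟩) (e.symm ⟨ι y, hιT y⟩)).2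
      rw [hidx, hidx] at this
      exact this)
  rw [← hK] at hmain
  rw [div_mul_eq_mul_div, div_le_iff₀ hK0, ← Real.mul_rpow (by positivity) hpos.le]
  refine le_trans ?_ hmain
  apply Real.rpow_le_rpow (by positivity) _ (by positivity)
  have h1 : 0 < Real.exp (-2) := Real.exp_pos _
  nlinarith

end Vale.Agent.P249
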