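import Vale.Agent.P249.Lower5

/-!
Lower bound for the dimension with explicit dependence on the distortion.
-/

namespace Vale.Agent.P249

open Finset MeasureTheory
open scoped ENNReal

universe u

/-- Lower bound for the dimension, with an explicit dependence on the distortion. -/
theorem lower_uniform (p : ℝ) (hp : 2 ≤ p) :
    ∃ c : ℝ, 0 < c ∧ ∀ D : ℝ, 0 < D → ∀ n : ℕ, 16 ≤ n → ∀ d : ℕ,
      (∀ (Ω : Type u) [MeasurableSpace Ω] (μ : Measure Ω)
        (X : Fin n → Lp ℝ (ENNReal.ofReal p) μ), Function.Injective X →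
        ∃ f : Fin n → Fin d → ℝ, ∃ s : ℝ, 0 < s ∧ ∀ i j,
          s * ‖X i - X j‖ ≤ (∑ k, |f i k - f j k| ^ p) ^ (1 / p) ∧
          (∑ k, |f i k - f j k| ^ p) ^ (1 / p) ≤ D * s * ‖X i - X j‖) →
      c / D ^ p * (Real.log n / Real.log (Real.log n)) ^ (p / 2) ≤ d := by
  classical
  have hp0 : 0 < p := by linarith
  obtain ⟨K', hK'⟩ : ∃ K' : ℝ, K' = (2 * Real.exp (1 / 2) * p ^ p) * p ^ p
    * (2 * Real.exp (5 / 2)) := ⟨_, rfl⟩
  have hK'0 : 0 < K' := by rw [hK']; positivity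
  refine ⟨(Real.exp (-2) / 24) ^ (p / 2) / K', by positivity, fun D hD n hn d hred => ?_⟩
  obtain ⟨K, hK⟩ : ∃ K : ℝ, K = D ^ p * (2 * Real.exp (1 / 2) * p ^ p) * p ^ p
    * (2 * Real.exp (5 / 2)) := ⟨_, rfl⟩
  have hK0 : 0 < K := by rw [hK]; positivity
  have hKK : K = K' * D ^ p := by rw [hK, hK']; ring
  rw [div_div, ← hKK]
  obtain ⟨M, hM, hMn, hMlog, hpos⟩ := choose_M n hn
  obtain ⟨Ω, mΩ, μ, X, hX⟩ := signs_lp.{u} M p (by linarith)
  have hfact : Fact (1 ≤ ENNReal.ofReal p) := ⟨by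
    rw [← ENNReal.ofReal_one]
    exact ENNReal.ofReal_le_ofReal (by linarith)⟩
  have hXinj : Function.Injective X := by
    intro x y hxy
    have h1 := hX x y
    rw [hxy, sub_self, norm_zero] at h1
    have h2 := rad_lower M (fun i => x i - y i) p hp
    have h3 : ∑ ω : Fin M → Bool,
        |∑ i, (x i - y i) * (if ω i then (1 : ℝ) else -1)| ^ p = 0 := by
      have h4 : 0 ≤ ∑ ω : Fin M → Bool,
        |∑ i, (x i - y i) * (if ω i then (1 : ℝ) else -1)| ^ p :=
        Finset.sum_nonneg fun _ _ => Real.rpow_nonneg (abs_nonneg _) _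
      exact ((Real.rpow_eq_zero h4 (by positivity)).mp h1.symm)
    rw [h3] at h2
    have h5 : 0 ≤ Real.sqrt (∑ i, (x i - y i) ^ 2) := Real.sqrt_nonneg _
    have h6 : (Real.sqrt (∑ i, (x i - y i) ^ 2)) ^ p ≤ 0 := by
      by_contra h7
      push Not at h7
      have : 0 < 2 ^ M * (Real.sqrt (∑ i, (x i - y i) ^ 2)) ^ p := by positivity
      linarith
    have h7 : (Real.sqrt (∑ i, (x i - y i) ^ 2)) ^ p = 0 :=
      le_antisymm h6 (Real.rpow_nonneg h5 _)
    have h8 : Real.sqrt (∑ i, (x i - y i) ^ 2) = 0 := (Real.rpow_eq_zero h5 hp0.ne').mp h7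
    have h9 : ∑ i, (x i - y i) ^ 2 = 0 :=
      (Real.sqrt_eq_zero (Finset.sum_nonneg fun _ _ => sq_nonneg _)).mp h8
    funext i
    have h10 := (Finset.sum_eq_zero_iff_of_nonneg (fun i _ => sq_nonneg (x i - y i))).mp h9 i
      (Finset.mem_univ i)
    have h11 := pow_eq_zero_iff (two_ne_zero) |>.mp h10
    linarith
  have : Infinite (Lp ℝ (ENNReal.ofReal p) μ) := by
    refine Infinite.of_injective (fun t : ℝ => X (fun _ => t)) ?_
    intro t t' htt
    have := congrFun (hXinj htt) ⟨0, hM⟩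
    exact this
  obtain ⟨ι, hι⟩ : ∃ ι : (Fin M → Fin (M + 1)) → Lp ℝ (ENNReal.ofReal p) μ,
    ι = fun x => X (fun i => ((x i : ℕ) : ℝ)) := ⟨_, rfl⟩
  have hιinj : Function.Injective ι := by
    intro x y hxy
    rw [hι] at hxy
    have h1 := hXinj hxy
    funext i
    have h2 : ((x i : ℕ) : ℝ) = ((y i : ℕ) : ℝ) := congrFun h1 i
    exact Fin.ext (by exact_mod_cast h2)
  have hcard : (Finset.univ.image ι).card ≤ n := by
    rw [Finset.card_image_of_injective _ hιinj, Finset.card_univ]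
    simp only [Fintype.card_pi, Fintype.card_fin, Finset.prod_const, Finset.card_univ]
    exact hMn
  obtain ⟨T, hT1, hT2⟩ := Infinite.exists_superset_card_eq (Finset.univ.image ι) n hcard
  obtain ⟨e⟩ : Nonempty (Fin n ≃ T) := ⟨(T.equivFinOfCardEq hT2).symm⟩
  obtain ⟨f, s, hs, hf⟩ := hred Ω μ (fun i => (e i : Lp ℝ (ENNReal.ofReal p) μ))
    (Subtype.val_injective.comp e.injective)
  have hιT : ∀ x, ι x ∈ T := fun x => hT1 (Finset.mem_image_of_mem _ (Finset.mem_univ x))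
  have hidx : ∀ x, (e (e.symm ⟨ι x, hιT x⟩) : Lp ℝ (ENNReal.ofReal p) μ) = ι x := fun x => by
    rw [Equiv.apply_symm_apply]
  have hmain := grid_dim M hM p D hp hD d (fun x => f (e.symm ⟨ι x, hιT x⟩)) s hs
    (fun x y => ‖ι x - ι y‖) (fun x y => by rw [hι]; exact hX _ _)
    (fun x y => by
      have := (hf (e.symm ⟨ι x, hιT x⟩) (e.symm ⟨ι y, hιT y⟩)).1
      rw [hidx, hidx] at this
      exact this)
    (fun x y => by
      have := (hf (e.symm ⟨ι x, hιT x⟩) (e.symm ⟨ι y, hιT y⟩)).2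
      rw [hidx, hidx] at this
      exact this)
  rw [← hK] at hmain
  rw [div_mul_eq_mul_div, div_le_iff₀ hK0, ← Real.mul_rpow (by positivity) hpos.le]
  refine le_trans ?_ hmain
  apply Real.rpow_le_rpow (by positivity) _ (by positivity)
  have h1 : 0 < Real.exp (-2) := Real.exp_pos _
  nlinarith

end Vale.Agent.P249
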