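import Mathlib

namespace Vale.Agent.P249

open Finset

theorem exp_upper (l a : ℝ) (hl0 : 0 ≤ l) (hl1 : l ≤ 1) (ha0 : 0 ≤ a) (ha1 : a ≤ 1) :
    Real.exp (l * a) ≤ 1 + (l + l ^ 2) * a := by
  have h1 : |l * a| ≤ 1 := by
    rw [abs_of_nonneg (mul_nonneg hl0 ha0)]
    nlinarith
  have h2 := (abs_le.mp (Real.abs_exp_sub_one_sub_id_le h1)).2
  have h3 : (l * a) ^ 2 ≤ l ^ 2 * a := by
    rw [mul_pow]
    apply mul_le_mul_of_nonneg_left _ (sq_nonneg l)
    nlinarith
  nlinarith

theorem exp_lower (l a : ℝ) (hl0 : 0 ≤ l) (hl1 : l ≤ 1) (ha0 : 0 ≤ a) (ha1 : a ≤ 1) :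
    Real.exp (-l * a) ≤ 1 - (l - l ^ 2) * a := by
  have h0 := mul_nonneg hl0 ha0
  have h1 : |-l * a| ≤ 1 := by
    rw [neg_mul, abs_neg, abs_of_nonneg h0]
    nlinarith
  have h2 := (abs_le.mp (Real.abs_exp_sub_one_sub_id_le h1)).2
  have h3 : (-l * a) ^ 2 ≤ l ^ 2 * a := by
    rw [mul_pow, neg_sq]
    apply mul_le_mul_of_nonneg_left _ (sq_nonneg l)
    nlinarith
  nlinarith

/-- Independent sampling with two-sided concentration for finitely many tests. -/
theorem sampling {T : Type*} [Fintype T] {P : Type*} [Fintype P] (w : T → ℝ)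
    (hw : ∀ t, 0 ≤ w t) (hw1 : ∑ t, w t = 1)
    (a : P → T → ℝ) (ha0 : ∀ e t, 0 ≤ a e t) (ha1 : ∀ e t, a e t ≤ 1) (μ : ℝ)
    (hμ : ∀ e, ∑ t, w t * a e t = μ) (ε : ℝ) (hε0 : 0 < ε) (hε1 : ε ≤ 1) (n : ℕ)
    (hn : 2 * (Fintype.card P : ℝ) * Real.exp (-(μ * n * ε ^ 2 / 4)) < 1) :
    ∃ τ : Fin n → T, (∀ j, 0 < w (τ j)) ∧ ∀ e, (1 - ε) * (μ * n) ≤ ∑ j, a e (τ j) ∧
      ∑ j, a e (τ j) ≤ (1 + ε) * (μ * n) := by
  classical
  by_contra hcon
  push Not at hcon
  set l := ε / 2 with hl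
  have hl0 : 0 ≤ l := by positivity
  have hl1 : l ≤ 1 := by linarith
  let G : (Fin n → T) → ℝ := fun τ => ∑ e : P,
    (Real.exp (-(l * (1 + ε) * (μ * n))) * ∏ j, Real.exp (l * a e (τ j))
      + Real.exp (l * (1 - ε) * (μ * n)) * ∏ j, Real.exp (-l * a e (τ j)))
  have hG0 : ∀ τ, 0 ≤ G τ := by
    intro τ
    apply Finset.sum_nonneg
    intro e _
    have h1 : 0 ≤ ∏ j, Real.exp (l * a e (τ j)) := Finset.prod_nonneg fun _ _ => (Real.exp_pos _).le
    have h2 : 0 ≤ ∏ j, Real.exp (-l * a e (τ j)) := Finset.prod_nonneg fun _ _ => (Real.exp_pos _).le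
    positivity
  have hG1 : ∀ τ : Fin n → T, (∀ j, 0 < w (τ j)) → 1 ≤ G τ := by
    intro τ hτ
    obtain ⟨e, he⟩ := hcon τ hτ
    have hterm0 : ∀ e' ∈ (univ : Finset P), 0 ≤
        (Real.exp (-(l * (1 + ε) * (μ * n))) * ∏ j, Real.exp (l * a e' (τ j))
        + Real.exp (l * (1 - ε) * (μ * n)) * ∏ j, Real.exp (-l * a e' (τ j))) := by
      intro e' _
      have h1 : 0 ≤ ∏ j, Real.exp (l * a e' (τ j)) :=
        Finset.prod_nonneg fun _ _ => (Real.exp_pos _).le
      have h2 : 0 ≤ ∏ j, Real.exp (-l * a e' (τ j)) :=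
        Finset.prod_nonneg fun _ _ => (Real.exp_pos _).le
      positivity
    refine le_trans ?_ (Finset.single_le_sum hterm0 (Finset.mem_univ e))
    rw [← Real.exp_sum, ← Real.exp_sum, ← Real.exp_add, ← Real.exp_add, ← Finset.mul_sum,
      ← Finset.mul_sum]
    by_cases h : (1 - ε) * (μ * n) ≤ ∑ j, a e (τ j)
    · have h1 := he h
      have h2 : 1 ≤ Real.exp (-(l * (1 + ε) * (μ * n)) + l * ∑ j, a e (τ j)) := by
        apply Real.one_le_exp
        nlinarith
      have h3 := Real.exp_pos (l * (1 - ε) * (μ * n) + -l * ∑ j, a e (τ j))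
      linarith
    · push Not at h
      have h2 : 1 ≤ Real.exp (l * (1 - ε) * (μ * n) + -l * ∑ j, a e (τ j)) := by
        apply Real.one_le_exp
        nlinarith
      have h3 := Real.exp_pos (-(l * (1 + ε) * (μ * n)) + l * ∑ j, a e (τ j))
      linarith
  have hsum1 : ∑ τ : Fin n → T, ∏ j, w (τ j) = 1 := by
    rw [← Fintype.sum_pow, hw1, one_pow]
  have hle : ∀ τ : Fin n → T, ∏ j, w (τ j) ≤ (∏ j, w (τ j)) * G τ := by
    intro τ
    by_cases h : ∀ j, 0 < w (τ j)
    · have h1 := hG1 τ h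
      have h2 : 0 ≤ ∏ j, w (τ j) := Finset.prod_nonneg fun _ _ => hw _
      nlinarith
    · push Not at h
      obtain ⟨j, hj⟩ := h
      have h0 : w (τ j) = 0 := le_antisymm hj (hw _)
      have h1 : ∏ j, w (τ j) = 0 := Finset.prod_eq_zero (Finset.mem_univ j) h0
      rw [h1, zero_mul]
  have hexpand : ∀ (e : P) (c : ℝ), ∑ τ : Fin n → T, (∏ j, w (τ j)) * ∏ j, Real.exp (c * a e (τ j))
      = (∑ t, w t * Real.exp (c * a e t)) ^ n := by
    intro e c
    rw [Fintype.sum_pow]
    refine Finset.sum_congr rfl fun τ _ => ?_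
    rw [← Finset.prod_mul_distrib]
  have hmain : ∑ τ : Fin n → T, (∏ j, w (τ j)) * G τ
      = ∑ e : P, (Real.exp (-(l * (1 + ε) * (μ * n))) * (∑ t, w t * Real.exp (l * a e t)) ^ n
        + Real.exp (l * (1 - ε) * (μ * n)) * (∑ t, w t * Real.exp (-l * a e t)) ^ n) := by
    simp only [G]
    simp_rw [Finset.mul_sum]
    rw [Finset.sum_comm]
    refine Finset.sum_congr rfl fun e _ => ?_
    rw [← hexpand e l, ← hexpand e (-l), Finset.mul_sum, Finset.mul_sum,
      ← Finset.sum_add_distrib]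
    refine Finset.sum_congr rfl fun τ _ => ?_
    ring
  have hup : ∀ e, ∑ t, w t * Real.exp (l * a e t) ≤ Real.exp ((l + l ^ 2) * μ) := by
    intro e
    calc ∑ t, w t * Real.exp (l * a e t) ≤ ∑ t, w t * (1 + (l + l ^ 2) * a e t) := by
          apply Finset.sum_le_sum
          intro t _
          exact mul_le_mul_of_nonneg_left (exp_upper l _ hl0 hl1 (ha0 e t) (ha1 e t)) (hw t)
      _ = (l + l ^ 2) * μ + 1 := by
          rw [← hμ e, Finset.mul_sum]
          simp_rw [mul_add, mul_one]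
          rw [Finset.sum_add_distrib, hw1, add_comm]
          congr 1
          refine Finset.sum_congr rfl fun t _ => ?_
          ring
      _ ≤ _ := Real.add_one_le_exp _
  have hlow : ∀ e, ∑ t, w t * Real.exp (-l * a e t) ≤ Real.exp (-((l - l ^ 2) * μ)) := by
    intro e
    calc ∑ t, w t * Real.exp (-l * a e t) ≤ ∑ t, w t * (1 - (l - l ^ 2) * a e t) := by
          apply Finset.sum_le_sum
          intro t _
          exact mul_le_mul_of_nonneg_left (exp_lower l _ hl0 hl1 (ha0 e t) (ha1 e t)) (hw t)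
      _ = -((l - l ^ 2) * μ) + 1 := by
          rw [← hμ e, Finset.mul_sum]
          simp_rw [mul_sub, mul_one]
          rw [Finset.sum_sub_distrib, hw1]
          have : ∑ t, w t * ((l - l ^ 2) * a e t) = ∑ t, (l - l ^ 2) * (w t * a e t) :=
            Finset.sum_congr rfl fun t _ => by ring
          rw [this]
          ring
      _ ≤ _ := Real.add_one_le_exp _
  have hfin : ∑ τ : Fin n → T, (∏ j, w (τ j)) * G τ
      ≤ 2 * (Fintype.card P : ℝ) * Real.exp (-(μ * n * ε ^ 2 / 4)) := by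
    rw [hmain]
    calc ∑ e : P, (Real.exp (-(l * (1 + ε) * (μ * n))) * (∑ t, w t * Real.exp (l * a e t)) ^ n
        + Real.exp (l * (1 - ε) * (μ * n)) * (∑ t, w t * Real.exp (-l * a e t)) ^ n)
        ≤ ∑ _e : P, 2 * Real.exp (-(μ * n * ε ^ 2 / 4)) := by
          apply Finset.sum_le_sum
          intro e _
          have h0 : ∀ c : ℝ, 0 ≤ ∑ t, w t * Real.exp (c * a e t) := fun c =>
            Finset.sum_nonneg fun t _ => mul_nonneg (hw t) (Real.exp_pos _).le
          have h1 : (∑ t, w t * Real.exp (l * a e t)) ^ n ≤ Real.exp (n * ((l + l ^ 2) * μ)) := by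
            rw [Real.exp_nat_mul]
            exact pow_le_pow_left₀ (h0 l) (hup e) n
          have h2 : (∑ t, w t * Real.exp (-l * a e t)) ^ n
              ≤ Real.exp (n * (-((l - l ^ 2) * μ))) := by
            rw [Real.exp_nat_mul]
            exact pow_le_pow_left₀ (h0 (-l)) (hlow e) n
          have h3 : Real.exp (-(l * (1 + ε) * (μ * n))) * (∑ t, w t * Real.exp (l * a e t)) ^ n
              ≤ Real.exp (-(μ * n * ε ^ 2 / 4)) := by
            calc _ ≤ Real.exp (-(l * (1 + ε) * (μ * n))) * Real.exp (n * ((l + l ^ 2) * μ)) := by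
                  gcongr
              _ = Real.exp (-(μ * n * ε ^ 2 / 4)) := by
                  rw [← Real.exp_add]
                  congr 1
                  rw [hl]
                  ring
          have h4 : Real.exp (l * (1 - ε) * (μ * n)) * (∑ t, w t * Real.exp (-l * a e t)) ^ n
              ≤ Real.exp (-(μ * n * ε ^ 2 / 4)) := by
            calc _ ≤ Real.exp (l * (1 - ε) * (μ * n)) * Real.exp (n * (-((l - l ^ 2) * μ))) := by
                  gcongr
              _ = Real.exp (-(μ * n * ε ^ 2 / 4)) := by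
                  rw [← Real.exp_add]
                  congr 1
                  rw [hl]
                  ring
          linarith
      _ = _ := by
          rw [Finset.sum_const, Finset.card_univ, nsmul_eq_mul]
          ring
  have hge : (1 : ℝ) ≤ ∑ τ : Fin n → T, (∏ j, w (τ j)) * G τ := by
    rw [← hsum1]
    exact Finset.sum_le_sum fun τ _ => hle τ
  linarith

end Vale.Agent.P249
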