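import Vale.Agent.P249.Spanner
import Vale.Agent.P249.Sampling

namespace Vale.Agent.P249

open Finset

/-- Importance weights coming from the edges of a two-hop spanner. -/
theorem weights (p : ℝ) (hp : 1 ≤ p) {V T : Type*} [Fintype V] [DecidableEq V] [Fintype T]
    (X : V → T → ℝ) (s L : ℕ) (hs : 2 * Fintype.card V < 2 ^ s)
    (hs1 : 1 ≤ s) (hL : Fintype.card V < 2 ^ L * s) :
    ∃ (q : T → ℝ) (N : ℕ), (∀ t, 0 ≤ q t) ∧ ∑ t, q t = N ∧
      N ≤ Fintype.card V * ((L + 1) * (s + 1)) ∧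
      ∀ u v t, |X u t - X v t| ^ p
        ≤ (2 * (L : ℝ) + 1) ^ p * (∑ t, |X u t - X v t| ^ p) * q t := by
  classical
  have hp0 : 0 < p := by linarith
  have hp1 : p * (1 / p) = 1 := by field_simp
  let S : V → V → ℝ := fun u v => ∑ t, |X u t - X v t| ^ p
  have hS0 : ∀ u v, 0 ≤ S u v := fun u v =>
    Finset.sum_nonneg fun t _ => Real.rpow_nonneg (abs_nonneg _) _
  have hSself : ∀ u, S u u = 0 := by
    intro u
    simp only [S, sub_self, abs_zero]
    apply Finset.sum_eq_zero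
    intro t _
    exact Real.zero_rpow hp0.ne'
  have hSt : ∀ u v t, |X u t - X v t| ^ p ≤ S u v := fun u v t =>
    Finset.single_le_sum (f := fun t => |X u t - X v t| ^ p)
      (fun t _ => Real.rpow_nonneg (abs_nonneg _) _) (Finset.mem_univ t)
  let dd : V → V → ℝ := fun u v => (S u v) ^ (1 / p)
  have hdd0 : ∀ u v, 0 ≤ dd u v := fun u v => Real.rpow_nonneg (hS0 u v) _
  have hddp : ∀ u v, dd u v ^ p = S u v := by
    intro u v
    simp only [dd]
    rw [← Real.rpow_mul (hS0 u v), mul_comm, hp1, Real.rpow_one]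
  have hsymm : ∀ u v, dd u v = dd v u := by
    intro u v
    simp only [dd, S]
    congr 1
    refine Finset.sum_congr rfl fun t _ => ?_
    rw [abs_sub_comm]
  have htri : ∀ u v w, dd u w ≤ dd u v + dd v w := by
    intro u v w
    have h := Real.Lp_add_le univ (fun t => X u t - X v t) (fun t => X v t - X w t) hp
    simp only [sub_add_sub_cancel] at h
    exact h
  obtain ⟨E, hEcard, hE⟩ : ∃ E : Finset (V × V),
      E.card ≤ Fintype.card V * ((L + 1) * (s + 1)) ∧
        ∀ (u v : V), ∃ w, (u, w) ∈ E ∧ (v, w) ∈ E ∧ dd u w + dd v w ≤ (2 * L + 1) * dd u v := by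
    by_cases hV : Nonempty V
    · obtain ⟨E, h1, h2⟩ := spanner dd hdd0 hsymm htri s hs hs1 L univ Finset.univ_nonempty
        (by rwa [Finset.card_univ])
      refine ⟨E, h1, fun u v => ?_⟩
      obtain ⟨w, w1, w2, w3⟩ := h2 u v 0 le_rfl ⟨u, Finset.mem_univ _, by
        simp only [dd, hSself, zero_mul]
        rw [Real.zero_rpow (by positivity)]⟩
      refine ⟨w, w1, w2, ?_⟩
      rwa [zero_add] at w3
    · refine ⟨∅, by simp, fun u => absurd ⟨u⟩ hV⟩
  let E' : Finset (V × V) := E.filter fun e => 0 < S e.1 e.2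
  let q : T → ℝ := fun t => ∑ e ∈ E', |X e.1 t - X e.2 t| ^ p / S e.1 e.2
  have hq0 : ∀ t, 0 ≤ q t := fun t => Finset.sum_nonneg fun e _ =>
    div_nonneg (Real.rpow_nonneg (abs_nonneg _) _) (hS0 _ _)
  have hqsum : ∑ t, q t = E'.card := by
    simp only [q]
    rw [Finset.sum_comm]
    have h1 : ∀ e ∈ E', ∑ t, |X e.1 t - X e.2 t| ^ p / S e.1 e.2 = 1 := by
      intro e he
      rw [← Finset.sum_div]
      exact div_self (Finset.mem_filter.mp he).2.ne'
    rw [Finset.sum_congr rfl h1]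
    simp
  have hEt : ∀ e ∈ E, ∀ t, |X e.1 t - X e.2 t| ≤ dd e.1 e.2 * q t ^ (1 / p) := by
    intro e he t
    rcases (hS0 e.1 e.2).eq_or_lt with h0 | h0
    · have h1 := hSt e.1 e.2 t
      rw [← h0] at h1
      have h2 : |X e.1 t - X e.2 t| ^ p = 0 :=
        le_antisymm h1 (Real.rpow_nonneg (abs_nonneg _) _)
      have h3 : |X e.1 t - X e.2 t| = 0 := by
        rwa [Real.rpow_eq_zero (abs_nonneg _) hp0.ne'] at h2
      rw [h3]
      exact mul_nonneg (hdd0 _ _) (Real.rpow_nonneg (hq0 t) _)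
    · have h1 : |X e.1 t - X e.2 t| ^ p / S e.1 e.2 ≤ q t :=
        Finset.single_le_sum (f := fun e : V × V => |X e.1 t - X e.2 t| ^ p / S e.1 e.2)
          (fun e _ => div_nonneg (Real.rpow_nonneg (abs_nonneg _) _) (hS0 _ _))
          (Finset.mem_filter.mpr ⟨he, h0⟩)
      have h2 : |X e.1 t - X e.2 t| ^ p ≤ S e.1 e.2 * q t := by
        rw [div_le_iff₀ h0] at h1
        linarith
      calc |X e.1 t - X e.2 t| = (|X e.1 t - X e.2 t| ^ p) ^ (1 / p) := by
            rw [← Real.rpow_mul (abs_nonneg _), hp1, Real.rpow_one]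
        _ ≤ (S e.1 e.2 * q t) ^ (1 / p) :=
            Real.rpow_le_rpow (Real.rpow_nonneg (abs_nonneg _) _) h2 (by positivity)
        _ = dd e.1 e.2 * q t ^ (1 / p) := Real.mul_rpow (hS0 _ _) (hq0 t)
  refine ⟨q, E'.card, hq0, hqsum, (Finset.card_filter_le _ _).trans hEcard, ?_⟩
  intro u v t
  obtain ⟨w, w1, w2, w3⟩ := hE u v
  have h1 := hEt _ w1 t
  have h2 := hEt _ w2 t
  have h3 : |X u t - X v t| ≤ |X u t - X w t| + |X v t - X w t| := by
    have := abs_sub_le (X u t) (X w t) (X v t)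
    rw [abs_sub_comm (X w t) (X v t)] at this
    exact this
  have hq1 : 0 ≤ q t ^ (1 / p) := Real.rpow_nonneg (hq0 t) _
  have h4 : |X u t - X v t| ≤ (2 * L + 1) * dd u v * q t ^ (1 / p) := by
    simp only at h1 h2
    nlinarith
  calc |X u t - X v t| ^ p ≤ ((2 * L + 1) * dd u v * q t ^ (1 / p)) ^ p :=
        Real.rpow_le_rpow (abs_nonneg _) h4 hp0.le
    _ = (2 * (L : ℝ) + 1) ^ p * S u v * q t := by
        rw [Real.mul_rpow (by have := hdd0 u v; positivity) hq1,
          Real.mul_rpow (by positivity) (hdd0 u v), hddp,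
          ← Real.rpow_mul (hq0 t), mul_comm (1 / p) p, hp1, Real.rpow_one]

/-- Sampling with given importance weights. -/
theorem reduce_weights (p : ℝ) (hp : 1 ≤ p) {V T : Type*} [Fintype V] [DecidableEq V]
    [Fintype T] (X : V → T → ℝ) (S : V → V → ℝ) (hSdef : ∀ u v, ∑ t, |X u t - X v t| ^ p = S u v)
    (hX : ∀ u v, u ≠ v → 0 < S u v) (huv0 : ∃ u v : V, u ≠ v)
    (ε : ℝ) (hε0 : 0 < ε) (hε1 : ε < 1) (q : T → ℝ) (N : ℝ) (hq0 : ∀ t, 0 ≤ q t)
    (hqsum : ∑ t, q t = N) (K0 : ℝ) (hK0pos : 0 < K0)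
    (hkey : ∀ u v t, |X u t - X v t| ^ p ≤ K0 * S u v * q t) (n : ℕ) (hn0 : 0 < n)
    (hn : 2 * (Fintype.card V : ℝ) ^ 2 * Real.exp (-(1 / (K0 * N) * n * ε ^ 2 / 4)) < 1) :
    ∃ f : V → Fin n → ℝ, ∃ K : ℝ, 0 < K ∧ ∀ u v,
      (1 - ε) * K * S u v ≤ ∑ j, |f u j - f v j| ^ p ∧
      ∑ j, |f u j - f v j| ^ p ≤ (1 + ε) * K * S u v := by
  classical
  have hp0 : 0 < p := by linarith
  obtain ⟨u0, v0, huv0⟩ := huv0
  have hN0 : 0 ≤ N := by
    rw [← hqsum]
    exact Finset.sum_nonneg fun t _ => hq0 t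
  have hNEr : 0 < N := by
    rcases hN0.eq_or_lt with h0 | h0
    · exfalso
      have h1 : ∑ t, q t = 0 := by rw [hqsum, ← h0]
      have h2 := (Finset.sum_eq_zero_iff_of_nonneg (fun t _ => hq0 t)).mp h1
      have h3 : S u0 v0 ≤ 0 := by
        rw [← hSdef]
        apply Finset.sum_nonpos
        intro t ht
        have := hkey u0 v0 t
        rw [h2 t ht, mul_zero] at this
        exact this
      have := hX u0 v0 huv0
      linarith
    · exact h0
  let w : T → ℝ := fun t => q t / N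
  let a : {z : V × V // z.1 ≠ z.2} → T → ℝ := fun z t =>
    if q t = 0 then 0 else |X z.1.1 t - X z.1.2 t| ^ p / (K0 * S z.1.1 z.1.2 * q t)
  have hSz : ∀ z : {z : V × V // z.1 ≠ z.2}, 0 < S z.1.1 z.1.2 := fun z => hX _ _ z.2
  have haq : ∀ (z : {z : V × V // z.1 ≠ z.2}) t, 0 < q t →
      K0 * S z.1.1 z.1.2 * a z t = |X z.1.1 t - X z.1.2 t| ^ p / q t := by
    intro z t hqt
    simp only [a]
    rw [if_neg hqt.ne']
    have := hSz z
    field_simp
  have ha0 : ∀ z t, 0 ≤ a z t := by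
    intro z t
    simp only [a]
    split_ifs
    · exact le_rfl
    · have := hSz z
      have h2 := hq0 t
      have h3 : 0 ≤ |X z.1.1 t - X z.1.2 t| ^ p := Real.rpow_nonneg (abs_nonneg _) _
      positivity
  have ha1 : ∀ z t, a z t ≤ 1 := by
    intro z t
    simp only [a]
    split_ifs with h
    · exact zero_le_one
    · have h1 := hSz z
      have h2 : 0 < q t := lt_of_le_of_ne (hq0 t) (Ne.symm h)
      rw [div_le_one (by positivity)]
      exact hkey _ _ t
  have hw1 : ∑ t, w t = 1 := by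
    simp only [w]
    rw [← Finset.sum_div, hqsum]
    exact div_self hNEr.ne'
  have hμ : ∀ z, ∑ t, w t * a z t = 1 / (K0 * N) := by
    intro z
    have h1 : ∀ t, w t * a z t = |X z.1.1 t - X z.1.2 t| ^ p / (K0 * S z.1.1 z.1.2 * N) := by
      intro t
      simp only [w, a]
      have h1 := hSz z
      split_ifs with h
      · have h2 := hkey z.1.1 z.1.2 t
        rw [h, mul_zero] at h2
        have h3 : |X z.1.1 t - X z.1.2 t| ^ p = 0 :=
          le_antisymm h2 (Real.rpow_nonneg (abs_nonneg _) _)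
        rw [h3, mul_zero, zero_div]
      · field_simp
    simp_rw [h1]
    rw [← Finset.sum_div, hSdef]
    have h3 := hSz z
    field_simp
  have hcardP : (Fintype.card {z : V × V // z.1 ≠ z.2} : ℝ) ≤ (Fintype.card V : ℝ) ^ 2 := by
    have h1 : Fintype.card {z : V × V // z.1 ≠ z.2} ≤ Fintype.card (V × V) :=
      Fintype.card_subtype_le _
    rw [Fintype.card_prod] at h1
    rw [sq]
    exact_mod_cast h1
  have hsamp : 2 * (Fintype.card {z : V × V // z.1 ≠ z.2} : ℝ)
      * Real.exp (-(1 / (K0 * N) * n * ε ^ 2 / 4)) < 1 := by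
    refine lt_of_le_of_lt ?_ hn
    gcongr
  obtain ⟨τ, hτ1, hτ2⟩ := sampling w (fun t => div_nonneg (hq0 t) hNEr.le) hw1 a ha0 ha1 _ hμ
    ε hε0 hε1.le n hsamp
  have hqτ : ∀ j, 0 < q (τ j) := by
    intro j
    have h1 : 0 < q (τ j) / N := hτ1 j
    exact (div_pos_iff_of_pos_right hNEr).mp h1
  have hn0r : (0 : ℝ) < n := by exact_mod_cast hn0
  refine ⟨fun u j => (q (τ j)) ^ (-(1 / p)) * X u (τ j), n / N, by positivity, ?_⟩
  intro u v
  by_cases huv : u = v
  · subst huv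
    have h1 : S u u = 0 := by
      rw [← hSdef]
      apply Finset.sum_eq_zero
      intro t _
      rw [sub_self, abs_zero]
      exact Real.zero_rpow hp0.ne'
    rw [h1]
    have h2 : ∑ j, |(q (τ j)) ^ (-(1 / p)) * X u (τ j) - (q (τ j)) ^ (-(1 / p)) * X u (τ j)| ^ p
        = 0 := by
      apply Finset.sum_eq_zero
      intro t _
      rw [sub_self, abs_zero]
      exact Real.zero_rpow hp0.ne'
    rw [h2, mul_zero, mul_zero]
    exact ⟨le_rfl, le_rfl⟩
  · have hsum : ∑ j, |(q (τ j)) ^ (-(1 / p)) * X u (τ j) - (q (τ j)) ^ (-(1 / p)) * X v (τ j)| ^ p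
        = K0 * S u v * ∑ j, a ⟨(u, v), huv⟩ (τ j) := by
      rw [Finset.mul_sum]
      refine Finset.sum_congr rfl fun j _ => ?_
      rw [haq ⟨(u, v), huv⟩ (τ j) (hqτ j), ← mul_sub, abs_mul,
        abs_of_nonneg (Real.rpow_nonneg (hq0 _) _),
        Real.mul_rpow (Real.rpow_nonneg (hq0 _) _) (abs_nonneg _), ← Real.rpow_mul (hq0 _)]
      have h1 : -(1 / p) * p = -1 := by field_simp
      rw [h1, Real.rpow_neg_one, inv_mul_eq_div]
    rw [hsum]
    obtain ⟨h1, h2⟩ := hτ2 ⟨(u, v), huv⟩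
    have hSpos : 0 < S u v := hX u v huv
    have e1 : (1 - ε) * (n / N) * S u v
        = K0 * S u v * ((1 - ε) * (1 / (K0 * N) * n)) := by
      field_simp
    have e2 : (1 + ε) * (n / N) * S u v
        = K0 * S u v * ((1 + ε) * (1 / (K0 * N) * n)) := by
      field_simp
    constructor
    · rw [e1]
      exact mul_le_mul_of_nonneg_left h1 (by positivity)
    · rw [e2]
      exact mul_le_mul_of_nonneg_left h2 (by positivity)

/-- Dimension reduction for finitely many points in a finite-dimensional `ℓ_p`, by sampling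
coordinates with probabilities given by the edges of a two-hop spanner. -/
theorem reduce (p : ℝ) (hp : 1 ≤ p) {V T : Type*} [Fintype V] [DecidableEq V] [Fintype T]
    (X : V → T → ℝ) (hX : ∀ u v, u ≠ v → 0 < ∑ t, |X u t - X v t| ^ p)
    (ε : ℝ) (hε0 : 0 < ε) (hε1 : ε < 1) (s L : ℕ) (hs : 2 * Fintype.card V < 2 ^ s)
    (hs1 : 1 ≤ s) (hL : Fintype.card V < 2 ^ L * s) (n : ℕ) (hn0 : 0 < n)
    (hn : 2 * (Fintype.card V : ℝ) ^ 2 * Real.exp (-(n * ε ^ 2 / (4 * ((2 * L + 1) ^ p *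
      (Fintype.card V * ((L + 1) * (s + 1))))))) < 1) :
    ∃ f : V → Fin n → ℝ, ∃ K : ℝ, 0 < K ∧ ∀ u v,
      (1 - ε) * K * ∑ t, |X u t - X v t| ^ p ≤ ∑ j, |f u j - f v j| ^ p ∧
      ∑ j, |f u j - f v j| ^ p ≤ (1 + ε) * K * ∑ t, |X u t - X v t| ^ p := by
  classical
  have hp0 : 0 < p := by linarith
  by_cases hP : ∃ u v : V, u ≠ v
  swap
  · push Not at hP
    refine ⟨fun _ _ => 0, 1, one_pos, fun u v => ?_⟩
    have huv : u = v := hP u v
    subst huv
    have h1 : ∑ t, |X u t - X u t| ^ p = 0 := by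
      apply Finset.sum_eq_zero
      intro t _
      rw [sub_self, abs_zero]
      exact Real.zero_rpow hp0.ne'
    rw [h1]
    simp only [sub_self, abs_zero, mul_zero]
    rw [Real.zero_rpow hp0.ne']
    simp
  obtain ⟨q, N, hq0, hqsum, hNle, hkey⟩ := weights p hp X s L hs hs1 hL
  refine reduce_weights p hp X (fun u v => ∑ t, |X u t - X v t| ^ p) (fun _ _ => rfl) hX hP
    ε hε0 hε1 q N hq0 hqsum ((2 * (L : ℝ) + 1) ^ p) (by positivity) hkey n hn0 ?_
  refine lt_of_le_of_lt ?_ hn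
  have hNpos : 0 < N := by
    rw [Nat.pos_iff_ne_zero]
    intro h0
    obtain ⟨u0, v0, huv0⟩ := hP
    have h1 : ∑ t, q t = 0 := by rw [hqsum, h0, Nat.cast_zero]
    have h2 := (Finset.sum_eq_zero_iff_of_nonneg (fun t _ => hq0 t)).mp h1
    have h3 : ∑ t, |X u0 t - X v0 t| ^ p ≤ 0 := by
      apply Finset.sum_nonpos
      intro t ht
      have := hkey u0 v0 t
      rw [h2 t ht, mul_zero] at this
      exact this
    have := hX u0 v0 huv0
    linarith
  have hNr : (0 : ℝ) < N := by exact_mod_cast hNpos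
  have h1 : (N : ℝ) ≤ Fintype.card V * ((L + 1) * (s + 1)) := by exact_mod_cast hNle
  have h2 : n * ε ^ 2 / (4 * ((2 * (L : ℝ) + 1) ^ p * (Fintype.card V * ((L + 1) * (s + 1)))))
      ≤ 1 / ((2 * (L : ℝ) + 1) ^ p * N) * n * ε ^ 2 / 4 := by
    have h3 : 1 / ((2 * (L : ℝ) + 1) ^ p * N) * n * ε ^ 2 / 4
        = n * ε ^ 2 / (4 * ((2 * (L : ℝ) + 1) ^ p * N)) := by
      field_simp
    rw [h3]
    apply div_le_div_of_nonneg_left (by positivity) (by positivity)
    gcongr
  have h3 : Real.exp (-(1 / ((2 * (L : ℝ) + 1) ^ p * N) * n * ε ^ 2 / 4))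
      ≤ Real.exp (-(n * ε ^ 2 /
      (4 * ((2 * (L : ℝ) + 1) ^ p * (Fintype.card V * ((L + 1) * (s + 1))))))) := by
    apply Real.exp_le_exp.mpr
    linarith
  gcongr

end Vale.Agent.P249
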