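import Mathlib

namespace Vale.Agent.P249

open Finset

theorem coloring_count {V : Type*} [Fintype V] [DecidableEq V] (s : ℕ) (N : Finset V) (b : Bool)
    (hN : s ≤ N.card) :
    2 ^ s * (univ.filter fun c : V → Bool => ∀ w ∈ N, c w = b).card ≤ 2 ^ Fintype.card V := by
  have h1 : (univ.filter fun c : V → Bool => ∀ w ∈ N, c w = b)
      = Fintype.piFinset (fun w => if w ∈ N then ({b} : Finset Bool) else univ) := by
    ext c
    simp only [Finset.mem_filter, Finset.mem_univ, true_and, Fintype.mem_piFinset]
    constructor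
    · intro h w
      by_cases hw : w ∈ N
      · rw [if_pos hw, Finset.mem_singleton]
        exact h w hw
      · rw [if_neg hw]
        exact Finset.mem_univ _
    · intro h w hw
      have := h w
      rw [if_pos hw, Finset.mem_singleton] at this
      exact this
  rw [h1, Fintype.card_piFinset]
  have h2 : ∏ w : V, (if w ∈ N then ({b} : Finset Bool) else univ).card
      = 2 ^ (univ.filter fun w => w ∉ N).card := by
    have h3 : ∀ w : V, (if w ∈ N then ({b} : Finset Bool) else univ).card
        = if w ∉ N then 2 else 1 := by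
      intro w
      by_cases hw : w ∈ N
      · simp [hw]
      · simp [hw]
    simp_rw [h3]
    rw [Finset.prod_ite, Finset.prod_const, Finset.prod_const_one, mul_one]
  rw [h2]
  have h4 : N.card + (univ.filter fun w => w ∉ N).card = Fintype.card V := by
    have := Finset.card_filter_add_card_filter_not (s := (univ : Finset V)) (fun w => w ∈ N)
    rw [Finset.filter_mem_eq_inter, Finset.univ_inter, Finset.card_univ] at this
    exact this
  rw [← h4, pow_add]
  exact Nat.mul_le_mul_right _ (Nat.pow_le_pow_right (by norm_num) hN)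

/-- A coloring in which no large set is monochromatic. -/
theorem exists_coloring {V : Type*} [Fintype V] [DecidableEq V] (s : ℕ)
    (hs : 2 * Fintype.card V < 2 ^ s) (N : V → Finset V) (hN : ∀ v, s ≤ (N v).card) :
    ∃ c : V → Bool, ∀ v b, ∃ w ∈ N v, c w ≠ b := by
  by_contra hcon
  push Not at hcon
  have h1 : (univ : Finset (V → Bool)) ⊆ (univ : Finset (V × Bool)).biUnion
      (fun z => univ.filter fun c : V → Bool => ∀ w ∈ N z.1, c w = z.2) := by
    intro c _
    obtain ⟨v, b, hvb⟩ := hcon c
    rw [Finset.mem_biUnion]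
    exact ⟨(v, b), Finset.mem_univ _, Finset.mem_filter.mpr ⟨Finset.mem_univ _, hvb⟩⟩
  have h2 := (Finset.card_le_card h1).trans Finset.card_biUnion_le
  have h3 : 2 ^ s * ∑ z : V × Bool, (univ.filter fun c : V → Bool => ∀ w ∈ N z.1, c w = z.2).card
      ≤ (2 * Fintype.card V) * 2 ^ Fintype.card V := by
    rw [Finset.mul_sum]
    calc ∑ z : V × Bool, 2 ^ s * (univ.filter fun c : V → Bool => ∀ w ∈ N z.1, c w = z.2).card
        ≤ ∑ _z : V × Bool, 2 ^ Fintype.card V :=
          Finset.sum_le_sum fun z _ => coloring_count s (N z.1) z.2 (hN z.1)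
      _ = _ := by
          rw [Finset.sum_const, Finset.card_univ, Fintype.card_prod, Fintype.card_bool,
            smul_eq_mul]
          ring
  rw [Finset.card_univ, Fintype.card_fun, Fintype.card_bool] at h2
  have h4 : 2 ^ s * 2 ^ Fintype.card V ≤ (2 * Fintype.card V) * 2 ^ Fintype.card V :=
    (Nat.mul_le_mul_left _ h2).trans h3
  have h5 : 2 ^ s ≤ 2 * Fintype.card V := Nat.le_of_mul_le_mul_right h4 (by positivity)
  omega

/-- One halving step. -/
theorem halving {V : Type*} [Fintype V] [DecidableEq V] (d : V → V → ℝ) (s : ℕ)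
    (hs : 2 * Fintype.card V < 2 ^ s) (hs1 : 1 ≤ s) (A : Finset V) (hA : s ≤ A.card) :
    ∃ A' : Finset V, A' ⊆ A ∧ A'.Nonempty ∧ 2 * A'.card ≤ A.card ∧
      ∀ v, (A.filter fun w => ∀ a ∈ A', d v w < d v a).card < s := by
  classical
  have hAne : A.Nonempty := Finset.card_pos.mp (by omega)
  have hball : ∀ v, ∃ w0 ∈ A, s ≤ (A.filter fun w => d v w ≤ d v w0).card ∧
      ∀ w ∈ A, s ≤ (A.filter fun w' => d v w' ≤ d v w).card → d v w0 ≤ d v w := by
    intro v
    have hne : (A.filter fun w => s ≤ (A.filter fun w' => d v w' ≤ d v w).card).Nonempty := by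
      obtain ⟨w1, hw1, hmax⟩ := Finset.exists_max_image A (d v) hAne
      refine ⟨w1, Finset.mem_filter.mpr ⟨hw1, ?_⟩⟩
      rw [Finset.filter_true_of_mem hmax]
      exact hA
    obtain ⟨w0, hw0, hmin⟩ := Finset.exists_min_image _ (d v) hne
    rw [Finset.mem_filter] at hw0
    exact ⟨w0, hw0.1, hw0.2, fun w hw hws => hmin w (Finset.mem_filter.mpr ⟨hw, hws⟩)⟩
  choose w0 hw0A hw0s hw0min using hball
  obtain ⟨c, hc⟩ := exists_coloring s hs (fun v => A.filter fun w => d v w ≤ d v (w0 v)) hw0s
  obtain ⟨b, hb⟩ : ∃ b : Bool, 2 * (A.filter fun w => c w = b).card ≤ A.card := by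
    have h1 : (A.filter fun w => c w = true).card + (A.filter fun w => c w = false).card
        = A.card := by
      have := Finset.card_filter_add_card_filter_not (s := A) (fun w => c w = true)
      rw [← this]
      congr 2
      ext w
      simp
    by_cases h2 : 2 * (A.filter fun w => c w = true).card ≤ A.card
    · exact ⟨true, h2⟩
    · exact ⟨false, by omega⟩
  have hhit : ∀ v, ∃ a ∈ A.filter (fun w => c w = b), d v a ≤ d v (w0 v) := by
    intro v
    obtain ⟨w, hw, hwb⟩ := hc v (!b)
    rw [Finset.mem_filter] at hw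
    refine ⟨w, Finset.mem_filter.mpr ⟨hw.1, ?_⟩, hw.2⟩
    cases hcw : c w <;> cases b <;> simp_all
  refine ⟨A.filter fun w => c w = b, Finset.filter_subset _ _, ?_, hb, ?_⟩
  · obtain ⟨v, _⟩ := hAne
    obtain ⟨a, ha, _⟩ := hhit v
    exact ⟨a, ha⟩
  · intro v
    by_contra hcon
    push Not at hcon
    obtain ⟨w1, hw1, hmax⟩ := Finset.exists_max_image
      (A.filter fun w => ∀ a ∈ A.filter (fun w => c w = b), d v w < d v a) (d v)
      (Finset.card_pos.mp (by omega))
    rw [Finset.mem_filter] at hw1
    have h1 : s ≤ (A.filter fun w' => d v w' ≤ d v w1).card := by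
      refine hcon.trans (Finset.card_le_card ?_)
      intro w hw
      exact Finset.mem_filter.mpr ⟨(Finset.mem_filter.mp hw).1, hmax w hw⟩
    have h2 := hw0min v w1 hw1.1 h1
    obtain ⟨a, ha, hav⟩ := hhit v
    have h3 := hw1.2 a ha
    linarith

/-- Two-hop spanners of finite metric spaces with few edges. -/
theorem spanner {V : Type*} [Fintype V] [DecidableEq V] (d : V → V → ℝ)
    (hd0 : ∀ u v, 0 ≤ d u v) (hsymm : ∀ u v, d u v = d v u)
    (htri : ∀ u v w, d u w ≤ d u v + d v w) (s : ℕ) (hs : 2 * Fintype.card V < 2 ^ s)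
    (hs1 : 1 ≤ s) (k : ℕ) :
    ∀ A : Finset V, A.Nonempty → A.card < 2 ^ k * s →
      ∃ E : Finset (V × V), E.card ≤ Fintype.card V * ((k + 1) * (s + 1)) ∧
        ∀ (u v : V) (M : ℝ), 0 ≤ M → (∃ a ∈ A, d u a ≤ M * d u v) →
          ∃ w, (u, w) ∈ E ∧ (v, w) ∈ E ∧ d u w + d v w ≤ (2 * (M + k) + 1) * d u v := by
  classical
  have hbase : ∀ A : Finset V, A.card < s → ∀ k : ℕ,
      ∃ E : Finset (V × V), E.card ≤ Fintype.card V * ((k + 1) * (s + 1)) ∧
        ∀ (u v : V) (M : ℝ), 0 ≤ M → (∃ a ∈ A, d u a ≤ M * d u v) →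
          ∃ w, (u, w) ∈ E ∧ (v, w) ∈ E ∧ d u w + d v w ≤ (2 * (M + k) + 1) * d u v := by
    intro A hA k
    refine ⟨univ ×ˢ A, ?_, ?_⟩
    · rw [Finset.card_product, Finset.card_univ]
      apply Nat.mul_le_mul_left
      nlinarith
    · rintro u v M hM ⟨a, ha, had⟩
      refine ⟨a, by simp [ha], by simp [ha], ?_⟩
      have h1 := htri v u a
      rw [hsymm v u] at h1
      have h2 : 0 ≤ (k : ℝ) * d u v := mul_nonneg (Nat.cast_nonneg _) (hd0 _ _)
      nlinarith
  induction k with
  | zero =>
    intro A _ hA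
    exact hbase A (by simpa using hA) 0
  | succ k ih =>
    intro A hAne hAcard
    by_cases hAs : A.card < s
    · exact hbase A hAs (k + 1)
    push Not at hAs
    obtain ⟨A', hA'sub, hA'ne, hA'half, hbunch⟩ := halving d s hs hs1 A hAs
    obtain ⟨E', hE'card, hE'⟩ := ih A' hA'ne (by
      rw [pow_succ] at hAcard
      have : 2 ^ k * 2 * s = 2 * (2 ^ k * s) := by ring
      omega)
    have hnear : ∀ v, ∃ p ∈ A, ∀ a ∈ A, d v p ≤ d v a := fun v =>
      Finset.exists_min_image A (d v) hAne
    choose p hpA hpmin using hnear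
    refine ⟨E' ∪ (univ.image (fun v => (v, p v)) ∪ univ.biUnion (fun v =>
      (A.filter fun w => ∀ a ∈ A', d v w < d v a).image (fun w => (v, w)))), ?_, ?_⟩
    · have h1 := Finset.card_union_le E' (univ.image (fun v => (v, p v)) ∪ univ.biUnion (fun v =>
        (A.filter fun w => ∀ a ∈ A', d v w < d v a).image (fun w => (v, w))))
      have h2 := Finset.card_union_le (univ.image (fun v => (v, p v))) (univ.biUnion (fun v =>
        (A.filter fun w => ∀ a ∈ A', d v w < d v a).image (fun w => (v, w))))
      have h3 : (univ.image (fun v => (v, p v))).card ≤ Fintype.card V :=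
        Finset.card_image_le.trans (by simp)
      have h4 : (univ.biUnion (fun v =>
          (A.filter fun w => ∀ a ∈ A', d v w < d v a).image (fun w => (v, w)))).card
          ≤ Fintype.card V * s := by
        refine Finset.card_biUnion_le.trans ?_
        calc ∑ v, ((A.filter fun w => ∀ a ∈ A', d v w < d v a).image (fun w => (v, w))).card
            ≤ ∑ _v : V, s := by
              apply Finset.sum_le_sum
              intro v _
              exact Finset.card_image_le.trans (hbunch v).le
          _ = _ := by rw [Finset.sum_const, Finset.card_univ, smul_eq_mul]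
      have h5 : Fintype.card V * ((k + 1 + 1) * (s + 1))
          = Fintype.card V * ((k + 1) * (s + 1)) + (Fintype.card V + Fintype.card V * s) := by
        ring
      omega
    · rintro u v M hM ⟨a, ha, had⟩
      have hpu : d u (p u) ≤ M * d u v := (hpmin u a ha).trans had
      have huE : (u, p u) ∈ E' ∪ (univ.image (fun v => (v, p v)) ∪ univ.biUnion (fun v =>
          (A.filter fun w => ∀ a ∈ A', d v w < d v a).image (fun w => (v, w)))) := by
        apply Finset.mem_union_right
        apply Finset.mem_union_left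
        exact Finset.mem_image.mpr ⟨u, Finset.mem_univ _, rfl⟩
      have h1 := htri v u (p u)
      rw [hsymm v u] at h1
      have h2 : 0 ≤ (k : ℝ) * d u v := mul_nonneg (Nat.cast_nonneg _) (hd0 _ _)
      have h3 := hd0 u v
      by_cases hcase : ∀ a ∈ A', d v (p u) < d v a
      · refine ⟨p u, huE, ?_, ?_⟩
        · apply Finset.mem_union_right
          apply Finset.mem_union_right
          rw [Finset.mem_biUnion]
          refine ⟨v, Finset.mem_univ _, Finset.mem_image.mpr ⟨p u, ?_, rfl⟩⟩
          exact Finset.mem_filter.mpr ⟨hpA u, hcase⟩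
        · push_cast
          nlinarith
      · push Not at hcase
        obtain ⟨a', ha', hle⟩ := hcase
        obtain ⟨w, hw1, hw2, hw3⟩ := hE' v u (M + 1) (by linarith) ⟨a', ha', by
          rw [hsymm v u]
          nlinarith⟩
        refine ⟨w, Finset.mem_union_left _ hw2, Finset.mem_union_left _ hw1, ?_⟩
        rw [hsymm v u] at hw3
        push_cast
        nlinarith

end Vale.Agent.P249
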